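import Crest.Agent.X277.Rgr.Rig
import Crest.Agent.X277.Rgr.Mod
import Crest.Agent.X277.Pst.Har
import Crest.Agent.X277.BD.Num

/-!
# Row 262, MOD (helper79): calculus of birational models in the language of b-divisors

A model is a free birational b-divisor `H`; its prime divisors are the valuation rings `Prm H V`.

* `IsMod H`, `LeOn H a b`, `EqOn H a b`, `Car H a` (Cartier on the model), `RNef H a`, `RSa H a`
  (nef, semiample over the model);
* `le_of_dvs`, `nonpos_of_nsmul_le` : the order is seen by divisorial valuations, archimedean;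
* `neg`, `le_of_rnef`, `eq_of_rnef` : **the negativity lemma**;
* `Car.Sec_le`, `Car.Sec_add` : sections do not see exceptional divisors;
* `loc_le`, `Prm.of_car`, `loc_eq` : comparison of models;
* `val_eq_one_of_loc` : the support of an anti-semiample effective divisor is a union of fibres.
-/

set_option autoImplicit false
set_option linter.unusedSectionVars false

noncomputable section

namespace Crest.Agent.X262.Mod

open Crest.Agent.X277 Crest.Agent.X277.BD Crest.Agent.X277.Pst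

universe u

section Formal

variable {k F : Type*} [Field k] [Field F] [Algebra k F]

/-- `H` is a polarisation of a normal projective model -/
structure IsMod (H : BD k F) : Prop where
  free : H.Free
  bir : Bir H

/-- `a ≤ b` at the primes of the `H`-model -/
def LeOn (H a b : BD k F) : Prop := ∀ V, Prm H V → a.val V ≤ b.val V

/-- `a = b` at the primes of the `H`-model -/
def EqOn (H a b : BD k F) : Prop := ∀ V, Prm H V → a.val V = b.val V

/-- `a` is Cartier on the `H`-model -/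
def Car (H a : BD k F) : Prop := ∃ c : ℕ, (c • H + a).Free ∧ (c • H - a).Free

/-- `a` is nef over the `H`-model -/
def RNef (H a : BD k F) : Prop := ∃ c : ℕ, Nef (c • H + a)

/-- `a` is semiample over the `H`-model -/
def RSa (H a : BD k F) : Prop := ∃ r c : ℕ, 0 < r ∧ (c • H + r • a).Free

variable {H H' a b c d e : BD k F} {V W : RZ k F} {f g : F}

theorem bir_of_big (h : Big H) : Bir H := fun f => by
  by_cases hf : f = 0
  · exact ⟨0, 1, by simpa using one_mem_Sec, one_ne_zero, by simp [hf]⟩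
  obtain ⟨m, -, w, h1, h2⟩ := h (pr k f ⊔ 0)
  refine ⟨m, w, Sec_mono (sub_le_self _ le_sup_right) h1, h2, ?_⟩
  have h3 := mul_mem_Sec (Sec_mono (le_sup_left (b := 0)) (mem_Sec_pr (k := k) f)) h1
  rwa [add_sub_cancel] at h3

theorem IsMod.big (h : IsMod H) : Big H := fun y => by
  obtain ⟨c, w, h1, h2⟩ := Rgr.exists_le h.bir y
  refine ⟨c + 1, c.succ_pos, ?_⟩
  rw [succ_nsmul, add_sub_right_comm]
  exact Eff.add ⟨w, (pr_le_iff h1).1 (le_sub_iff_add_le'.2 h2), h1⟩ h.free.eff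

theorem isMod_iff : IsMod H ↔ H.Free ∧ Big H :=
  ⟨fun h => ⟨h.free, h.big⟩, fun h => ⟨h.1, bir_of_big h.2⟩⟩

theorem IsMod.add (h : IsMod H) (hb : b.Free) : IsMod (H + b) := ⟨h.free.add hb, h.bir.add hb⟩

theorem IsMod.nsmul (h : IsMod H) {m : ℕ} (hm : 0 < m) : IsMod (m • H) :=
  isMod_iff.2 ⟨h.free.nsmul m, h.big.nsmul hm⟩

/-! ### `LeOn`, `EqOn` -/

theorem LeOn.rfl : LeOn H a a := fun _ _ => le_rfl

theorem LeOn.of_le (h : a ≤ b) : LeOn H a b := fun V _ => h V

theorem LeOn.trans (h : LeOn H a b) (h' : LeOn H b c) : LeOn H a c :=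
  fun V hV => (h V hV).trans (h' V hV)

theorem LeOn.add (h : LeOn H a b) (h' : LeOn H c d) : LeOn H (a + c) (b + d) := fun V hV => by
  rw [val_add, val_add]
  exact mul_le_mul' (h V hV) (h' V hV)

theorem LeOn.nsmul (h : LeOn H a b) (m : ℕ) : LeOn H (m • a) (m • b) := fun V hV => by
  rw [val_nsmul, val_nsmul]
  exact pow_le_pow_left' (h V hV) m

theorem LeOn.of_nsmul {m : ℕ} (hm : 0 < m) (h : LeOn H (m • a) (m • b)) : LeOn H a b :=
  fun V hV => by
    have h1 := h V hV
    rw [val_nsmul, val_nsmul] at h1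
    exact (pow_le_pow_iff_left₀ zero_le zero_le hm.ne').1 h1

theorem leOn_add_iff : LeOn H (a + c) (b + c) ↔ LeOn H a b :=
  ⟨fun h => by simpa using h.add (LeOn.rfl (a := -c)), fun h => h.add LeOn.rfl⟩

theorem leOn_sub : LeOn H (a - b) 0 ↔ LeOn H a b := by
  rw [← leOn_add_iff (c := b), sub_add_cancel, zero_add]

theorem leOn_sub' : LeOn H 0 (b - a) ↔ LeOn H a b := by
  rw [← leOn_add_iff (c := a), sub_add_cancel, zero_add]

theorem LeOn.neg (h : LeOn H a b) : LeOn H (-b) (-a) := by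
  rw [← leOn_sub, neg_sub_neg, leOn_sub]
  exact h

theorem EqOn.le (h : EqOn H a b) : LeOn H a b := fun V hV => (h V hV).le

theorem EqOn.ge (h : EqOn H a b) : LeOn H b a := fun V hV => (h V hV).ge

theorem LeOn.antisymm (h : LeOn H a b) (h' : LeOn H b a) : EqOn H a b :=
  fun V hV => (h V hV).antisymm (h' V hV)

theorem EqOn.rfl : EqOn H a a := fun _ _ => Eq.refl _

theorem EqOn.symm (h : EqOn H a b) : EqOn H b a := fun V hV => (h V hV).symm

theorem EqOn.trans (h : EqOn H a b) (h' : EqOn H b c) : EqOn H a c :=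
  fun V hV => (h V hV).trans (h' V hV)

theorem EqOn.add (h : EqOn H a b) (h' : EqOn H c d) : EqOn H (a + c) (b + d) :=
  (h.le.add h'.le).antisymm (h.ge.add h'.ge)

theorem EqOn.neg (h : EqOn H a b) : EqOn H (-a) (-b) := h.ge.neg.antisymm h.le.neg

theorem EqOn.sub (h : EqOn H a b) (h' : EqOn H c d) : EqOn H (a - c) (b - d) := by
  simpa only [sub_eq_add_neg] using h.add h'.neg

theorem EqOn.nsmul (h : EqOn H a b) (m : ℕ) : EqOn H (m • a) (m • b) :=
  (h.le.nsmul m).antisymm (h.ge.nsmul m)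

theorem EqOn.zsmul (h : EqOn H a b) (m : ℤ) : EqOn H (m • a) (m • b) := fun V hV => by
  rw [val_zsmul, val_zsmul, h V hV]

theorem eqOn_sub : EqOn H (a - b) 0 ↔ EqOn H a b :=
  ⟨fun h => by simpa using h.add (EqOn.rfl (a := b)), fun h => by
    simpa using h.sub (EqOn.rfl (a := b))⟩

/-! ### `Car`, `RSa`, `RNef` -/

theorem free_mono (hH : H.Free) {m n : ℕ} (h : (m • H + a).Free) (hmn : m ≤ n) :
    (n • H + a).Free := by
  obtain ⟨l, rfl⟩ := Nat.exists_eq_add_of_le hmn
  rw [add_nsmul, add_right_comm]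
  exact h.add (hH.nsmul l)

theorem car_of (hH : H.Free) {m n : ℕ} (h1 : (m • H + a).Free) (h2 : (n • H - a).Free) :
    Car H a :=
  ⟨max m n, free_mono hH h1 (le_max_left _ _), by
    rw [sub_eq_add_neg] at h2 ⊢
    exact free_mono hH h2 (le_max_right _ _)⟩

theorem Car.zero : Car H 0 := ⟨0, by simpa using Free.zero, by simpa using Free.zero⟩

theorem Car.neg (h : Car H a) : Car H (-a) := by
  obtain ⟨c, h1, h2⟩ := h
  exact ⟨c, by rwa [← sub_eq_add_neg], by rwa [sub_neg_eq_add]⟩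

theorem Car.add (ha : Car H a) (hb : Car H b) : Car H (a + b) := by
  obtain ⟨c, h1, h2⟩ := ha
  obtain ⟨d, h3, h4⟩ := hb
  refine ⟨c + d, ?_, ?_⟩
  · convert h1.add h3 using 1
    rw [add_nsmul]
    abel
  · convert h2.add h4 using 1
    rw [add_nsmul]
    abel

theorem Car.sub (ha : Car H a) (hb : Car H b) : Car H (a - b) :=
  sub_eq_add_neg a b ▸ ha.add hb.neg

variable (H) in
/-- the group of Cartier divisors of the `H`-model -/
def carG : AddSubgroup (BD k F) where
  carrier := {a | Car H a}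
  zero_mem' := Car.zero
  add_mem' := Car.add
  neg_mem' := Car.neg

theorem mem_carG : a ∈ carG H ↔ Car H a := Iff.rfl

theorem Car.nsmul (ha : Car H a) (m : ℕ) : Car H (m • a) := (carG H).nsmul_mem ha m

theorem Car.zsmul (ha : Car H a) (m : ℤ) : Car H (m • a) := (carG H).zsmul_mem ha m

theorem Car.sum {ι : Type*} {s : Finset ι} {a : ι → BD k F} (h : ∀ i ∈ s, Car H (a i)) :
    Car H (∑ i ∈ s, a i) := (carG H).sum_mem h

theorem car_self (hH : H.Free) : Car H H :=
  ⟨1, (hH.nsmul 1).add hH, by simpa using Free.zero⟩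

theorem car_pr (f : F) : Car H (pr k f) :=
  ⟨0, by simpa using free_pr f, by simpa using free_neg_pr f⟩

theorem Car.of_lin (h : Lin a b) (hb : Car H b) : Car H a := by
  obtain ⟨f, -, rfl⟩ := h
  exact hb.add (car_pr f)

theorem car_of_free (hH : H.Free) (ha : a.Free) {n : ℕ} (h : (n • H - a).Free) : Car H a :=
  car_of hH (m := 0) (by simpa using ha) h

theorem car_add_left (hH : H.Free) (hb : b.Free) : Car (H + b) H :=
  car_of_free (hH.add hb) hH (n := 1) (by simpa using hb)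

theorem car_add_right (hH : H.Free) (hb : b.Free) : Car (H + b) b :=
  add_comm b H ▸ car_add_left hb hH

theorem Car.trans (hH : H'.Free) (h : Car H' H) (ha : Car H a) : Car H' a := by
  obtain ⟨c, h1, h2⟩ := ha
  obtain ⟨d, -, h4⟩ := h
  refine car_of hH (m := c * d) (n := c * d) ?_ ?_
  · convert (h4.nsmul c).add h1 using 1
    rw [smul_sub, mul_nsmul']
    abel
  · convert (h4.nsmul c).add h2 using 1
    rw [smul_sub, mul_nsmul']
    abel

theorem Car.mono (hH : H.Free) (hb : b.Free) (ha : Car H a) : Car (H + b) a :=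
  (car_add_left hH hb).trans (hH.add hb) ha

/-- every b-divisor is Cartier on a higher model -/
theorem exists_car (hH : H.Free) (a : BD k F) : ∃ b : BD k F, b.Free ∧ Car (H + b) a := by
  obtain ⟨b, h1, h2, h3, -⟩ := Rgr.exists_above hH a Set.finite_empty (by simp)
  exact ⟨b, h1, 1, by rwa [one_nsmul], by rwa [one_nsmul]⟩

theorem Car.rsa (h : Car H a) : RSa H a := by
  obtain ⟨c, h1, -⟩ := h
  exact ⟨1, c, one_pos, by rwa [one_nsmul]⟩

theorem rsa_of_semi {r : ℕ} (hr : 0 < r) (h : (r • a).Free) : RSa H a :=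
  ⟨r, 0, hr, by simpa using h⟩

theorem rsa_of_free (h : a.Free) : RSa H a := rsa_of_semi one_pos (by rwa [one_nsmul])

theorem RSa.add (ha : RSa H a) (hb : RSa H b) : RSa H (a + b) := by
  obtain ⟨r, c, hr, h1⟩ := ha
  obtain ⟨s, d, hs, h2⟩ := hb
  refine ⟨r * s, s * c + r * d, mul_pos hr hs, ?_⟩
  convert (h1.nsmul s).add (h2.nsmul r) using 1
  rw [smul_add, smul_add, smul_add, add_nsmul, smul_smul, smul_smul, smul_smul, smul_smul,
    mul_comm s r]
  abel

theorem RSa.nsmul (ha : RSa H a) (m : ℕ) : RSa H (m • a) := by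
  obtain ⟨r, c, hr, h1⟩ := ha
  refine ⟨r, m * c, hr, ?_⟩
  convert h1.nsmul m using 1
  rw [smul_add, smul_smul, smul_smul, smul_smul, mul_comm r m]

theorem RSa.of_nsmul {m : ℕ} (hm : 0 < m) (ha : RSa H (m • a)) : RSa H a := by
  obtain ⟨r, c, hr, h1⟩ := ha
  exact ⟨r * m, c, mul_pos hr hm, by rwa [mul_smul]⟩

theorem RSa.rnef (hH : H.Free) (ha : RSa H a) : RNef H a := by
  obtain ⟨r, c, hr, h1⟩ := ha
  refine ⟨c, nef_of_semiample hr ?_⟩
  rw [smul_add, smul_smul]
  exact free_mono hH h1 (Nat.le_mul_of_pos_left c hr)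

theorem Car.rnef (h : Car H a) : RNef H a := by
  obtain ⟨c, h1, -⟩ := h
  exact ⟨c, h1.nef⟩

theorem rnef_of_nef (h : Nef a) : RNef H a := ⟨0, by simpa using h⟩

theorem RNef.add (ha : RNef H a) (hb : RNef H b) : RNef H (a + b) := by
  obtain ⟨c, h1⟩ := ha
  obtain ⟨d, h2⟩ := hb
  refine ⟨c + d, ?_⟩
  convert h1.add h2 using 1
  rw [add_nsmul]
  abel

theorem RNef.nsmul (ha : RNef H a) (m : ℕ) : RNef H (m • a) := by
  obtain ⟨c, h1⟩ := ha
  refine ⟨m * c, ?_⟩
  convert h1.nsmul m using 1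
  rw [smul_add, smul_smul]

theorem RNef.of_nsmul (hH : H.Free) {m : ℕ} (hm : 0 < m) (ha : RNef H (m • a)) : RNef H a := by
  obtain ⟨c, h1⟩ := ha
  refine ⟨c, Nef.of_nsmul hm ?_⟩
  obtain ⟨m, rfl⟩ := Nat.exists_eq_succ_of_ne_zero hm.ne'
  convert h1.add ((hH.nsmul c).nsmul m).nef using 1
  rw [smul_add, succ_nsmul (c • H)]
  abel

theorem RNef.trans (h : Car H' H) (ha : RNef H a) : RNef H' a := by
  obtain ⟨c, h1⟩ := ha
  obtain ⟨d, -, h4⟩ := h
  refine ⟨c * d, ?_⟩
  convert (h4.nsmul c).nef.add h1 using 1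
  rw [smul_sub, mul_nsmul']
  abel

theorem RSa.trans (h : Car H' H) (ha : RSa H a) : RSa H' a := by
  obtain ⟨r, c, hr, h1⟩ := ha
  obtain ⟨d, -, h4⟩ := h
  refine ⟨r, c * d, hr, ?_⟩
  convert (h4.nsmul c).add h1 using 1
  rw [smul_sub, mul_nsmul']
  abel

/-! ### local rings -/

theorem loc_nsmul_le (H : BD k F) (m : ℕ) (V : RZ k F) : loc (m • H) V ≤ loc H V := by
  rintro x ⟨n, g, h1, h2, h3⟩
  rw [smul_smul] at h1 h2 h3
  exact ⟨_, g, h1, h2, h3⟩

theorem loc_le_nsmul (hH : H.Free) {m : ℕ} (hm : 0 < m) (V : RZ k F) :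
    loc H V ≤ loc (m • H) V := by
  obtain ⟨m, rfl⟩ := Nat.exists_eq_succ_of_ne_zero hm.ne'
  rw [succ_nsmul']
  exact loc_le_add (hH.nsmul m) V

/-- a model on which `H` is Cartier dominates the `H`-model -/
theorem loc_le {n : ℕ} (h : (n • H' - H).Free) (V : RZ k F) :
    loc H V ≤ loc H' V := by
  have h1 := loc_le_add (H := H) h V
  rw [add_sub_cancel] at h1
  exact h1.trans (loc_nsmul_le H' n V)

theorem Car.loc_le (h : Car H' H) (V : RZ k F) : loc H V ≤ loc H' V := by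
  obtain ⟨c, -, h1⟩ := h
  exact Mod.loc_le h1 V

theorem prm_of_loc_le (h : loc H V ≤ loc H' V) (hV : Prm H V) : Prm H' V := by
  obtain ⟨h1, x, h2, h3⟩ := hV
  exact ⟨h1, x, fun i => h (h2 i), h3⟩

theorem Car.prm (h : Car H' H) (hV : Prm H V) : Prm H' V :=
  prm_of_loc_le (h.loc_le V) hV

theorem prm_nsmul (hH : H.Free) {m : ℕ} (hm : 0 < m) : Prm (m • H) V ↔ Prm H V :=
  ⟨prm_of_loc_le (loc_nsmul_le H m V), prm_of_loc_le (loc_le_nsmul hH hm V)⟩

theorem LeOn.of_car (h : Car H' H) (hab : LeOn H' a b) : LeOn H a b :=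
  fun V hV => hab V (h.prm hV)

theorem EqOn.of_car (h : Car H' H) (hab : EqOn H' a b) : EqOn H a b :=
  fun V hV => hab V (h.prm hV)

/-- `W` specialises or equals: the centre of `V` on the `H`-model lies in the closure of the centre
of `W` -/
def Gz (H : BD k F) (V W : RZ k F) : Prop :=
  ∀ (m : ℕ) (g : F), g ∈ (m • H).Sec → V.v g = (m • H).val V → W.v g = (m • H).val W

theorem Gz.rfl : Gz H V V := fun _ _ _ h => h

theorem Gz.trans {U : RZ k F} (h : Gz H U V) (h' : Gz H V W) : Gz H U W :=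
  fun m g h1 h2 => h' m g h1 (h m g h1 h2)

theorem Gz.loc_le (h : Gz H V W) : loc H V ≤ loc H W := by
  rintro x ⟨m, g, h1, h2, h3⟩
  exact ⟨m, g, h1, h m g h1 h2, h3⟩

theorem gz_of_le (h : V.1 ≤ W.1) : Gz H V W := fun _ _ _ h2 => val_of_le h h2

theorem gz_of_loc (hH : H.Free) (h : ∀ x ∈ loc H V, x ∈ W.1) : Gz H V W := fun m g h1 h2 => by
  obtain ⟨t, h3, h4⟩ := (hH.nsmul m).exists_gen W
  refine (h1 W).antisymm ?_
  rw [← h4]
  exact (RZ.le_iff (ne_of_val h2)).2 (h _ (div_mem_loc h3 h1 h2))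

theorem gz_iff (hH : H.Free) : Gz H V W ↔ ∀ x ∈ loc H V, x ∈ W.1 :=
  ⟨fun h _ hx => mem_of_loc (h.loc_le hx), gz_of_loc hH⟩

theorem Gz.of_car (hH : H.Free) (hH' : H'.Free) (h : Car H' H) (hg : Gz H' V W) : Gz H V W :=
  gz_of_loc hH fun x hx => (gz_iff hH').1 hg x (h.loc_le V hx)

/-- a local generator of a Cartier divisor -/
theorem Car.exists_gen (hH : H.Free) (h : Car H a) (V : RZ k F) :
    ∃ g : F, g ≠ 0 ∧ ∀ W, Gz H V W → W.v g = a.val W := by
  obtain ⟨c, h1, h2⟩ := h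
  obtain ⟨s, h3, h4⟩ := h1.exists_gen V
  obtain ⟨t, h5, h6⟩ := h2.exists_gen V
  obtain ⟨u, h10, h11⟩ := (hH.nsmul c).exists_gen V
  have h7 : (c + c) • H = (c • H + a) + (c • H - a) := by
    rw [add_nsmul]
    abel
  refine ⟨s / u, div_ne_zero (ne_of_val h4) (ne_of_val h11), fun W hW => ?_⟩
  have h9 := hW (c + c) (s * t) (h7 ▸ mul_mem_Sec h3 h5) (by rw [h7, map_mul, h4, h6, ← val_add])
  rw [h7, map_mul, val_add (c • H + a)] at h9
  have h12 : W.v s = (c • H + a).val W := by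
    refine (h3 W).antisymm (le_of_mul_le_mul_right ?_ (val_pos (c • H - a) W))
    rw [← h9]
    exact mul_le_mul_right (h5 W) _
  rw [map_div₀, h12, hW c u h10 h11, val_add, mul_div_cancel_left₀ _ (val_ne _ _)]

/-- a function which is regular at the centre of `V` does not vanish at a generisation -/
theorem Gz.unit (h : Gz H V W) (hf : f ∈ loc H V) (h1 : V.v f = 1) : W.v f = 1 := by
  have h2 := RZ.le_one_iff.2 (mem_of_loc (h.loc_le hf))
  have h3 := RZ.le_one_iff.2 (mem_of_loc (h.loc_le (Neg.inv_mem_loc hf h1)))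
  rw [map_inv₀, inv_le_one₀ (RZ.pos (RZ.ne_zero_iff.1 (h1 ▸ one_ne_zero)))] at h3
  exact h2.antisymm h3

/-- the support of an anti-semiample effective divisor is a union of fibres -/
theorem RSa.val_eq_one (ha : RSa H a) (h0 : a ≤ 0) (h : Gz H V W) (h1 : a.val V = 1) :
    a.val W = 1 := by
  obtain ⟨r, c, hr, h2⟩ := ha
  obtain ⟨s, h3, h4⟩ := h2.exists_gen V
  have h5 : c • H + r • a ≤ c • H := add_le_of_nonpos_right (nsmul_nonpos h0 r)
  have h6 := h c s (Sec_mono h5 h3) (by rw [h4, val_add, val_nsmul r, h1, one_pow, mul_one])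
  have h7 := h3 W
  rw [h6, val_add, le_mul_iff_one_le_right (val_pos _ _), val_nsmul] at h7
  exact le_antisymm (h0 W) ((one_le_pow_iff_of_nonneg zero_le hr.ne').1 h7)

end Formal

/-! ### Hartogs and negativity -/

variable {k F : Type u} [Field k] [Field F] [Algebra k F] [CharZero k] [Algebra.EssFiniteType k F]
variable {H H' a b c e : BD k F} {V W : RZ k F} {f g : F}

variable (k F) in
theorem exists_isMod : ∃ H : BD k F, IsMod H := by
  obtain ⟨M⟩ := (inferInstance : Nonempty (Mdl k F))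
  exact ⟨M.H, isMod_iff.2 ⟨M.free_H, M.big_H⟩⟩

theorem isMod_mdl (M : Mdl k F) : IsMod M.H := isMod_iff.2 ⟨M.free_H, M.big_H⟩

theorem car_mdl {M : Mdl k F} : Car M.H a ↔ a ∈ M.On := by
  rw [Mdl.mem_On_iff]
  exact exists_congr fun m => by rw [add_comm a, neg_add_eq_sub]

theorem exists_mod_car (a : BD k F) : ∃ H, IsMod H ∧ Car H a := by
  obtain ⟨H, hH⟩ := exists_isMod k F
  obtain ⟨b, h1, h2⟩ := exists_car hH.free a
  exact ⟨H + b, hH.add h1, h2⟩

theorem Car.mem_Sec (hH : IsMod H) (ha : Car H a) (h : ∀ V, Prm H V → V.v f ≤ a.val V) :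
    f ∈ a.Sec := by
  obtain ⟨c, -, h1⟩ := ha
  exact hart hH.free hH.bir h1 h

theorem Car.Sec_le (hH : IsMod H) (hb : Car H b) (h : LeOn H a b) : a.Sec ≤ b.Sec :=
  fun _ hf => hb.mem_Sec hH fun V hV => (hf V).trans (h V hV)

theorem Car.nonneg (hH : IsMod H) (ha : Car H a) (h : LeOn H 0 a) : 0 ≤ a :=
  nonneg_iff.2 (ha.Sec_le hH h one_mem_Sec)

/-- sections do not see effective exceptional divisors -/
theorem Car.Sec_add (hH : IsMod H) (ha : Car H a) (he : 0 ≤ e) (h : LeOn H e 0) :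
    (a + e).Sec = a.Sec :=
  le_antisymm (ha.Sec_le hH (by simpa using (LeOn.rfl (a := a)).add h))
    (Sec_mono (le_add_of_nonneg_right he))

theorem Car.Sec_eq (hH : IsMod H) (ha : Car H a) (h1 : a ≤ b) (h : LeOn H b a) : b.Sec = a.Sec :=
  le_antisymm (ha.Sec_le hH h) (Sec_mono h1)

theorem Car.le_of_free (hH : IsMod H) (hb : Car H b) (ha : a.Free) (h : LeOn H a b) : a ≤ b :=
  ha.le_iff.2 (hb.Sec_le hH h)

/-- the order is seen by divisorial valuations -/
theorem le_of_dvs (h : ∀ V : RZ k F, Dvs V → a.val V ≤ b.val V) : a ≤ b := by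
  obtain ⟨H, hH, h1⟩ := exists_mod_car (b - a)
  exact sub_nonneg.1 (h1.nonneg hH (leOn_sub'.2 fun V hV => h V hV.dvs))

theorem eq_of_dvs (h : ∀ V : RZ k F, Dvs V → a.val V = b.val V) : a = b :=
  le_antisymm (le_of_dvs fun V hV => (h V hV).le) (le_of_dvs fun V hV => (h V hV).ge)

theorem mem_Sec_of_dvs (h : ∀ V : RZ k F, Dvs V → V.v f ≤ a.val V) : f ∈ a.Sec := by
  obtain ⟨H, hH, h1⟩ := exists_mod_car a
  exact h1.mem_Sec hH fun V hV => h V hV.dvs

theorem val_le_one_of_nsmul (hV : Dvs V) (h : ∀ j : ℕ, (j • a).val V ≤ e.val V) :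
    a.val V ≤ 1 := by
  by_contra hc
  obtain ⟨n, hn⟩ := Rgr.arch hV (e.val V) _ (not_le.1 hc)
  have h1 := (h (n + 1)).trans hn
  rw [val_nsmul] at h1
  exact absurd h1 (not_le.2 (pow_lt_pow_right₀ (not_le.1 hc) n.lt_succ_self))

/-- the group of b-divisors is archimedean -/
theorem nonpos_of_nsmul_le (h : ∀ j : ℕ, j • a ≤ e) : a ≤ 0 :=
  le_of_dvs fun _ hV => val_le_one_of_nsmul hV fun j => h j _

/-- **the negativity lemma** -/
theorem neg (hH : IsMod H) (ha : RNef H a) (h : LeOn H a 0) : a ≤ 0 := by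
  obtain ⟨m, y, -, h1⟩ := ha
  obtain ⟨c, w, hw, h2⟩ := Rgr.exists_le hH.bir y
  refine nonpos_of_nsmul_le (e := c • H - pr k w - y) fun j => ?_
  obtain ⟨r, hr, h3⟩ := h1 j
  have h4 : Car H (j • m • H + (c • H - pr k w)) :=
    (((car_self hH.free).nsmul m).nsmul j).add (((car_self hH.free).nsmul c).sub (car_pr w))
  have h5 : LeOn H (j • (m • H + a) + y) (j • m • H + (c • H - pr k w)) := by
    refine LeOn.add (LeOn.nsmul ?_ j) (LeOn.of_le (le_sub_iff_add_le.2 h2))
    simpa using (LeOn.rfl (a := m • H)).add h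
  have h6 := le_of_nsmul_le hr ((h4.nsmul r).le_of_free hH h3 (h5.nsmul r))
  rw [smul_add, add_assoc, add_le_add_iff_left] at h6
  exact le_sub_iff_add_le.2 h6

theorem le_of_rnef (hH : IsMod H) (ha : RNef H (a - b)) (h : LeOn H a b) : a ≤ b :=
  sub_nonpos.1 (neg hH ha (leOn_sub.2 h))

theorem eq_of_rnef (hH : IsMod H) (ha : RNef H (a - b)) (hb : RNef H (b - a)) (h : EqOn H a b) :
    a = b := le_antisymm (le_of_rnef hH ha h.le) (le_of_rnef hH hb h.ge)

/-- a relatively nef divisor is bounded by a Cartier divisor which bounds its trace -/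
theorem Car.le_of_rnef (hH : IsMod H) (hb : Car H b) (ha : RNef H a) (h : LeOn H a b) : a ≤ b :=
  Mod.le_of_rnef hH (sub_eq_add_neg a b ▸ ha.add hb.neg.rnef) h

theorem Car.le_of_nef (hH : IsMod H) (hb : Car H b) (ha : Nef a) (h : LeOn H a b) : a ≤ b :=
  hb.le_of_rnef hH (rnef_of_nef ha) h

theorem Car.le (hH : IsMod H) (hb : Car H b) (ha : Car H a) (h : LeOn H a b) : a ≤ b :=
  hb.le_of_rnef hH ha.rnef h

/-- uniqueness of the pull-back -/
theorem Car.eq (hH : IsMod H) (ha : Car H a) (hb : Car H b) (h : EqOn H a b) : a = b :=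
  le_antisymm (hb.le hH ha h.le) (ha.le hH hb h.ge)

/-- an exceptional effective relatively nef divisor is zero -/
theorem eq_zero_of_rnef (hH : IsMod H) (ha : RNef H a) (h0 : 0 ≤ a) (h : LeOn H a 0) : a = 0 :=
  le_antisymm (neg hH ha h) h0

end Crest.Agent.X262.Mod
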