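import Crest.Agent.X262.Mod79.QD

/-!
# Row 262, MOD (helper79): positive parts and models of `ℚ`-b-divisors

* `PosQ x p` : `p` is the semiample positive part of `x`;
* `md p` : a free multiple of the semiample class `p`; `mem_carQ_md`, `car_md`;
* `AmpQ H x` : ample on the `H`-model;
* `QFac H` : `ℚ`-factorial; `exists_single` : a prime divisor as the trace of a b-divisor.
-/

set_option autoImplicit false
set_option linter.unusedSectionVars false

noncomputable section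

namespace Crest.Agent.X262.Mod

open Crest.Agent.X277 Crest.Agent.X277.BD Crest.Agent.X277.Pst Filter

universe u

variable {k F : Type u} [Field k] [Field F] [Algebra k F] [CharZero k] [Algebra.EssFiniteType k F]
variable {H H' A a b c P : BD k F} {x y z p q : QD k F} {V : DV k F} {s t : ℚ}

/-! ### the model of a semiample class -/

theorem exists_md (p : QD k F) : ∃ a : BD k F, a.Free ∧
    (SaQ p → ∃ m : ℕ, 0 < m ∧ tr a = (m : ℚ) • p) := by
  by_cases h : SaQ p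
  · obtain ⟨m, a, h1, h2, h3⟩ := Lf.exists h
    exact ⟨a, h3, fun _ => ⟨m, h1, h2⟩⟩
  · exact ⟨0, Free.zero, fun h' => absurd h' h⟩

/-- a free multiple of a semiample class -/
def md (p : QD k F) : BD k F := (exists_md p).choose

theorem md_free (p : QD k F) : (md p).Free := (exists_md p).choose_spec.1

theorem SaQ.tr_md (h : SaQ p) : ∃ m : ℚ, 0 < m ∧ tr (md p) = m • p := by
  obtain ⟨m, h1, h2⟩ := (exists_md p).choose_spec.2 h
  exact ⟨m, Nat.cast_pos.2 h1, h2⟩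

theorem SaQ.big_md (h : SaQ p) : Big (md p) ↔ BigQ p := by
  obtain ⟨m, h1, h2⟩ := h.tr_md
  rw [← bigQ_tr, h2, bigQ_smul h1]

theorem SaQ.isMod (h : SaQ p) (hb : BigQ p) : IsMod (md p) :=
  isMod_iff.2 ⟨md_free p, h.big_md.2 hb⟩

theorem SaQ.tr_md_mem {S : Submodule ℚ (QD k F)} (h : SaQ p) : tr (md p) ∈ S ↔ p ∈ S := by
  obtain ⟨m, h1, h2⟩ := h.tr_md
  rw [h2, S.smul_mem_iff h1.ne']

theorem SaQ.car_md (h : SaQ p) (hH : H.Free) : Car H (md p) ↔ p ∈ CarQ H :=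
  ⟨fun h1 => h.tr_md_mem.1 h1.carQ, fun h1 => car_of_carQ hH (md_free p) (h.tr_md_mem.2 h1)⟩

theorem SaQ.mem_carQ (h : SaQ p) : p ∈ CarQ (md p) :=
  (h.car_md (md_free p)).1 (car_self (md_free p))

theorem SaQ.conv (hx : SaQ x) (h : SaQ (x + t • y)) (h0 : 0 ≤ s) (hs : s ≤ t) :
    SaQ (x + s • y) := by
  rcases (h0.trans hs).eq_or_lt with ht | ht
  · rwa [le_antisymm hs (ht ▸ h0)]
  have h1 := (hx.smul (sub_nonneg.2 ((div_le_one ht).2 hs))).add (h.smul (div_nonneg h0 ht.le))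
  convert h1 using 1
  rw [smul_add, smul_smul, div_mul_cancel₀ _ ht.ne']
  module

theorem carQ_iff (hH : H.Free) :
    x ∈ CarQ H ↔ ∃ c : ℚ, 0 < c ∧ SaQ (c • tr H + x) ∧ SaQ (c • tr H - x) := by
  constructor
  · intro h
    obtain ⟨m, a, h1, h2, c, h3, h4⟩ := Lf.exists h
    have hm : (0 : ℚ) < m := Nat.cast_pos.2 h1
    rw [sub_eq_add_neg] at h4
    refine ⟨((c + 1 : ℕ) : ℚ) / m, by positivity, saQ_of h1 ?_ (free_mono hH h3 c.le_succ),
      saQ_of h1 ?_ (free_mono hH h4 c.le_succ)⟩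
    · rw [map_add, tr_nsmul, h2, smul_add, smul_smul, mul_div_cancel₀ _ hm.ne']
    · rw [map_add, map_neg, tr_nsmul, h2, smul_sub, smul_smul, mul_div_cancel₀ _ hm.ne',
        sub_eq_add_neg]
  · rintro ⟨c, h0, h1, h2⟩
    obtain ⟨n, hn⟩ := exists_nat_ge c
    have h3 : SaQ ((n : ℚ) • tr H + x) := by
      convert ((saQ_tr hH).smul (sub_nonneg.2 hn)).add h1 using 1
      module
    have h4 : SaQ ((n : ℚ) • tr H - x) := by
      convert ((saQ_tr hH).smul (sub_nonneg.2 hn)).add h2 using 1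
      module
    filter_upwards [h3, h4] with m ⟨a, h5, h6⟩ ⟨b, h7, h8⟩
    have h9 : tr ((m * n) • H) = (m : ℚ) • (n : ℚ) • tr H := by
      rw [tr_nsmul, Nat.cast_mul, mul_smul]
    refine ⟨a - (m * n) • H, by rw [map_sub, h5, h9]; module, m * n, by simpa using h6, ?_⟩
    have h10 : (m * n) • H - (a - (m * n) • H) = b := tr_injective (by
      rw [map_sub, map_sub, h5, h7, h9]
      module)
    rwa [h10]

/-- the criterion for being Cartier on the model of a semiample class -/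
theorem SaQ.mem_carQ_iff (h : SaQ p) :
    z ∈ CarQ (md p) ↔ ∃ t : ℚ, 0 < t ∧ SaQ (p + t • z) ∧ SaQ (p - t • z) := by
  obtain ⟨m, h1, h2⟩ := h.tr_md
  rw [carQ_iff (md_free p), h2]
  constructor
  · rintro ⟨c, h3, h4, h5⟩
    have h6 : 0 < (c * m)⁻¹ := by positivity
    refine ⟨_, h6, ?_, ?_⟩
    · convert h4.smul h6.le using 1
      rw [smul_add, smul_smul, smul_smul, mul_assoc, inv_mul_cancel₀ (by positivity), one_smul]
    · convert h5.smul h6.le using 1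
      rw [smul_sub, smul_smul, smul_smul, mul_assoc, inv_mul_cancel₀ (by positivity), one_smul]
  · rintro ⟨t, h3, h4, h5⟩
    refine ⟨(t * m)⁻¹, by positivity, ?_, ?_⟩
    · convert h4.smul (inv_pos.2 h3).le using 1
      rw [smul_add, smul_smul, smul_smul, inv_mul_cancel₀ h3.ne', one_smul]
      congr 2
      field_simp
    · convert h5.smul (inv_pos.2 h3).le using 1
      rw [smul_sub, smul_smul, smul_smul, inv_mul_cancel₀ h3.ne', one_smul]
      congr 2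
      field_simp

theorem SaQ.mem_carQ_of (h : SaQ p) (hs : 0 < s) (ht : 0 < t) (h1 : SaQ (p + s • z))
    (h2 : SaQ (p + t • -z)) : z ∈ CarQ (md p) :=
  h.mem_carQ_iff.2 ⟨min s t, lt_min hs ht, h.conv h1 (lt_min hs ht).le (min_le_left _ _), by
    simpa [sub_eq_add_neg] using h.conv h2 (lt_min hs ht).le (min_le_right _ _)⟩

/-- a big class is not Cartier on the model of a class which is not big -/
theorem big_of_carQ (hA : A.Free) (hx : x ∈ CarQ A) (hb : BigQ x) : Big A := by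
  obtain ⟨c, h1, -, h2⟩ := (carQ_iff hA).1 hx
  have h3 := hb.add_sa h2
  rwa [add_sub_cancel, bigQ_smul h1, bigQ_tr] at h3

/-! ### ample classes -/

/-- ample on the `H`-model -/
def AmpQ (H : BD k F) (x : QD k F) : Prop := x ∈ CarQ H ∧ ∃ t : ℚ, 0 < t ∧ SaQ (x - t • tr H)

theorem ampQ_self (hH : H.Free) : AmpQ H (tr H) :=
  ⟨(car_self hH).carQ, 1, one_pos, by simpa using SaQ.zero⟩

theorem AmpQ.sa (hH : H.Free) (h : AmpQ H x) : SaQ x := by
  obtain ⟨-, t, h1, h2⟩ := h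
  simpa using h2.add ((saQ_tr hH).smul h1.le)

theorem AmpQ.big (hH : IsMod H) (h : AmpQ H x) : BigQ x := by
  obtain ⟨-, t, h1, h2⟩ := h
  simpa using ((bigQ_tr.2 hH.big).smul h1).add_sa h2

theorem AmpQ.smul (h : AmpQ H x) (hs : 0 < s) : AmpQ H (s • x) := by
  obtain ⟨h0, t, h1, h2⟩ := h
  exact ⟨Submodule.smul_mem _ _ h0, s * t, mul_pos hs h1, by
    simpa only [smul_sub, smul_smul] using h2.smul hs.le⟩

theorem AmpQ.add_sa (h : AmpQ H x) (hy : y ∈ CarQ H) (h' : SaQ y) : AmpQ H (x + y) := by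
  obtain ⟨h0, t, h1, h2⟩ := h
  exact ⟨add_mem h0 hy, t, h1, by simpa only [add_sub_right_comm] using h2.add h'⟩

theorem SaQ.ampQ (h : SaQ p) : AmpQ (md p) p := by
  obtain ⟨m, h1, h2⟩ := h.tr_md
  refine ⟨h.mem_carQ, m⁻¹, inv_pos.2 h1, ?_⟩
  rw [h2, smul_smul, inv_mul_cancel₀ h1.ne', one_smul, sub_self]
  exact SaQ.zero

/-- ampleness is an open condition -/
theorem AmpQ.exists_add (hH : H.Free) (h : AmpQ H x) (hz : z ∈ CarQ H) :
    ∃ t : ℚ, 0 < t ∧ ∀ s, 0 ≤ s → s ≤ t → AmpQ H (x + s • z) := by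
  obtain ⟨h0, t, h1, h2⟩ := h
  obtain ⟨c, h3, h4, -⟩ := (carQ_iff hH).1 hz
  refine ⟨t / (2 * c), by positivity, fun s h5 h6 =>
    ⟨add_mem h0 (Submodule.smul_mem _ _ hz), t / 2, by positivity, ?_⟩⟩
  have h7 : 0 ≤ t / 2 - s * c := by
    rw [le_div_iff₀ (by positivity)] at h6
    linarith
  convert (h2.add (h4.smul h5)).add ((saQ_tr hH).smul h7) using 1
  module

/-- the model of an ample class is the given model -/
theorem AmpQ.car (hH : H.Free) (h : AmpQ H x) : Car (md x) H := by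
  obtain ⟨t, h1, h2⟩ := h.2
  exact car_of_carQ (md_free x) hH ((h.sa hH).mem_carQ_iff.2
    ⟨t, h1, (h.sa hH).add ((saQ_tr hH).smul h1.le), h2⟩)

theorem AmpQ.car' (hH : H.Free) (h : AmpQ H x) : Car H (md x) := ((h.sa hH).car_md hH).2 h.1

theorem AmpQ.prm (hH : H.Free) (h : AmpQ H x) {V : RZ k F} : Prm (md x) V ↔ Prm H V :=
  ⟨(h.car' hH).prm, (h.car hH).prm⟩

theorem AmpQ.carQ (hH : H.Free) (h : AmpQ H x) : CarQ (md x) = CarQ H :=
  le_antisymm ((h.car' hH).carQ_le hH) ((h.car hH).carQ_le (md_free x))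

theorem AmpQ.of_car (hH : H.Free) (hH' : H'.Free) (h : AmpQ H x) (h1 : Car H' H)
    (h2 : Car H H') : AmpQ H' x := by
  obtain ⟨t, h3, h4⟩ := h.exists_add hH (neg_mem h2.carQ)
  exact ⟨h1.carQ_le hH' h.1, t, h3, by
    simpa [sub_eq_add_neg] using (h4 t h3.le le_rfl).sa hH⟩

/-! ### positive parts -/

/-- `p` is the semiample positive part of `x` -/
def PosQ (x p : QD k F) : Prop :=
  ∀ᶠ m : ℕ in dvT, ∃ a P, tr a = (m : ℚ) • x ∧ tr P = (m : ℚ) • p ∧ Pos a P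

theorem posQ_of {m : ℕ} (hm : 0 < m) (h1 : tr a = (m : ℚ) • x) (h2 : tr P = (m : ℚ) • p)
    (h : Pos a P) : PosQ x p :=
  ⟨m, hm, fun l _ => ⟨l • a, l • P, by rw [tr_nsmul, h1, smul_smul, Nat.cast_mul],
    by rw [tr_nsmul, h2, smul_smul, Nat.cast_mul], h.nsmul l⟩⟩

theorem PosQ.exists (h : PosQ x p) : ∃ (m : ℕ) (a P : BD k F), 0 < m ∧ tr a = (m : ℚ) • x ∧
    tr P = (m : ℚ) • p ∧ Pos a P := by
  obtain ⟨m, h1, a, P, h2⟩ := ev_exists h
  exact ⟨m, a, P, h1, h2⟩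

theorem PosQ.sa (h : PosQ x p) : SaQ p :=
  Eventually.mono h fun _ ⟨_, P, _, h2, h3⟩ => ⟨P, h2, h3.free⟩

theorem PosQ.mem_BQ (h : PosQ x p) : x ∈ BQ k F :=
  Eventually.mono h fun _ ⟨a, _, h1, _⟩ => ⟨a, h1, trivial⟩

theorem PosQ.le (h : PosQ x p) : p ≤ x := by
  obtain ⟨m, a, P, h1, h2, h3, h4⟩ := h.exists
  exact le_of_le_tr h1 h3 h2 h4.le

theorem PosQ.ge (h : PosQ x p) (hq : SaQ q) (h1 : q ≤ x) : q ≤ p := by
  obtain ⟨m, h2, ⟨a, P, h3, h4, h5⟩, b, h6, h7⟩ := ev_exists (Eventually.and h hq)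
  exact le_of_le_tr h2 h6 h4 (h5.ge_free h7 (le_of_tr h6 h3 h1))

theorem PosQ.unique (h : PosQ x p) (h' : PosQ x q) : p = q :=
  le_antisymm (h'.ge h.sa h.le) (h.ge h'.sa h'.le)

theorem PosQ.add_le {r : QD k F} (h : PosQ x p) (h' : PosQ y q) (hr : PosQ (x + y) r) :
    p + q ≤ r := hr.ge (h.sa.add h'.sa) (add_le_add h.le h'.le)

theorem PosQ.smul (h : PosQ x p) (ht : 0 < t) : PosQ (t • x) (t • p) := by
  obtain ⟨m, a, P, h1, h2, h3, h4⟩ := h.exists
  have h5 : ∀ (c : BD k F) (w : QD k F), tr c = (m : ℚ) • w →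
      tr (t.num.natAbs • c) = ((m * t.den : ℕ) : ℚ) • t • w := fun c w hc => by
    rw [tr_nsmul, hc, smul_smul, smul_smul, Nat.cast_mul, mul_assoc, Rat.den_mul_eq_num, mul_comm,
      Nat.cast_natAbs, abs_of_pos (Rat.num_pos.2 ht)]
  exact posQ_of (mul_pos h1 t.den_pos) (h5 a x h2) (h5 P p h3) (h4.nsmul _)

theorem PosQ.add_pr (h : PosQ x p) (hy : y ∈ PrQ k F) : PosQ (x + y) (p + y) := by
  filter_upwards [h, hy] with m ⟨a, P, h1, h2, h3⟩ ⟨c, h4, f, _, h5⟩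
  subst h5
  exact ⟨a + pr k f, P + pr k f, by rw [map_add, h1, h4, smul_add],
    by rw [map_add, h2, h4, smul_add], h3.add_pr f⟩

theorem PosQ.of_le (h : PosQ x p) (hy : y ∈ BQ k F) (h1 : p ≤ y) (h2 : y ≤ x) : PosQ y p := by
  filter_upwards [h, hy] with m ⟨a, P, h3, h4, h5⟩ ⟨b, h6, _⟩
  exact ⟨b, P, h6, h4, h5.of_le (le_of_tr h4 h6 h1) (le_of_tr h6 h3 h2)⟩

theorem SaQ.posQ (h : SaQ p) : PosQ p p :=
  Eventually.mono h fun _ ⟨a, h1, h2⟩ => ⟨a, a, h1, h1, pos_of_free h2⟩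

theorem PosQ.big_iff (h : PosQ x p) : BigQ p ↔ BigQ x := by
  obtain ⟨m, a, P, h1, h2, h3, h4⟩ := h.exists
  rw [bigQ_iff h1 h2, bigQ_iff h1 h3, h4.big_iff]

theorem PosQ.isMod (h : PosQ x p) (hb : BigQ x) : IsMod (md p) := h.sa.isMod (h.big_iff.2 hb)

theorem prm_md_iff {m : ℕ} (hm : 0 < m) (hP : P.Free) (h : tr P = (m : ℚ) • p) {V : RZ k F} :
    Prm (md p) V ↔ Prm P V := by
  refine AmpQ.prm hP ?_
  have h1 := (ampQ_self hP).smul (inv_pos.2 (Nat.cast_pos.2 hm : (0 : ℚ) < m))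
  rwa [h, smul_smul, inv_mul_cancel₀ (Nat.cast_pos.2 hm).ne', one_smul] at h1

/-- the negative part is exceptional -/
theorem PosQ.eqQ (h : PosQ x p) (hb : BigQ x) : EqQ (md p) p x := by
  obtain ⟨m, a, P, h1, h2, h3, h4⟩ := h.exists
  refine eqQ_of_tr h1 h3 h2 fun V hV => ?_
  exact h4.eqOn ((bigQ_iff h1 h2).1 hb) V ((prm_md_iff h1 h4.free h3).1 hV)

/-- the ample model is a birational contraction -/
theorem PosQ.prm (h : PosQ x p) (hb : BigQ x) (hH : IsMod H) (hx : x ∈ CarQ H) {V : RZ k F}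
    (hV : Prm (md p) V) : Prm H V := by
  obtain ⟨m, h1, ⟨a, P, h2, h3, h4⟩, b, h5, h6⟩ := ev_exists (Eventually.and h hx)
  obtain rfl := tr_injective (h5.trans h2.symm)
  exact h4.prm ((bigQ_iff h1 h2).1 hb) hH h6 ((prm_md_iff h1 h4.free h3).1 hV)

theorem posQ_of_leQ (hH : IsMod H) (hp : SaQ p) (h1 : p ∈ CarQ H) (hx : x ∈ BQ k F) (h2 : p ≤ x)
    (h3 : LeQ H x p) : PosQ x p := by
  filter_upwards [hp, h1, hx] with m ⟨P, h4, h5⟩ ⟨P', h6, h7⟩ ⟨a, h8, _⟩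
  obtain rfl := tr_injective (h6.trans h4.symm)
  exact ⟨a, P', h8, h4, pos_of_eqOn hH h5 h7 (le_of_tr h4 h8 h2) (leOn_of_tr h8 h4 h3)⟩

theorem PosQ.ge_nef (h : PosQ x p) (hb : BigQ x) (hq : NefQ q) (h1 : q ≤ x) : q ≤ p :=
  carQ_ge (h.isMod hb) h.sa.mem_carQ hq.rnef fun V hV => (h1 V).trans (h.eqQ hb V hV).ge

/-! ### `ℚ`-factorial models -/

/-- every trace is `ℚ`-Cartier -/
def QFac (H : BD k F) : Prop := ∀ x ∈ BQ k F, ∃ y ∈ CarQ H, EqQ H y x

theorem qFac_iff : QFac H ↔ ∀ a : BD k F, ∃ m : ℕ, 0 < m ∧ ∃ a', Car H a' ∧ EqOn H a' (m • a) := by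
  constructor
  · intro h a
    obtain ⟨y, h1, h2⟩ := h _ (tr_mem_BQ a)
    obtain ⟨m, a', h3, h4, h5⟩ := Lf.exists h1
    exact ⟨m, h3, a', h5, eqOn_of_tr h4 (tr_nsmul m a) h2⟩
  · intro h x hx
    obtain ⟨m, a, h1, h2, -⟩ := Lf.exists hx
    obtain ⟨n, h3, a', h4, h5⟩ := h a
    have h6 : (0 : ℚ) < (n * m : ℕ) := Nat.cast_pos.2 (mul_pos h3 h1)
    refine ⟨((n * m : ℕ) : ℚ)⁻¹ • tr a', Submodule.smul_mem _ _ h4.carQ,
      eqQ_of_tr (mul_pos h3 h1) ?_ ?_ h5⟩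
    · rw [smul_smul, mul_inv_cancel₀ h6.ne', one_smul]
    · rw [tr_nsmul, h2, smul_smul, Nat.cast_mul]

theorem od_sup (V : DV k F) (a b : BD k F) : od V (a ⊔ b) = max (od V a) (od V b) := ord_sup a b

theorem od_inf (V : DV k F) (a b : BD k F) : od V (a ⊓ b) = min (od V a) (od V b) := by
  rw [← neg_inj, ← map_neg, neg_inf, od_sup, map_neg, map_neg, max_neg_neg]

/-- a prime divisor of a model is the trace of an effective b-divisor -/
theorem IsMod.exists_single (hH : IsMod H) (G : DV k F) : ∃ a : BD k F, 0 ≤ a ∧ od G a = 1 ∧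
    ∀ V : DV k F, Prm H V.1 → V ≠ G → od V a = 0 := by
  classical
  obtain ⟨f, -, h1⟩ := exists_od_pr G
  have h2 := hH.fin_supp (tr_mem_BQ (pr k f ⊔ 0))
  have key : ∀ T : Finset (DV k F), ∃ a : BD k F, 0 ≤ a ∧ a ≤ pr k f ⊔ 0 ∧ od G a = 1 ∧
      ∀ V ∈ T, V ≠ G → od V a = 0 := by
    intro T
    induction T using Finset.induction_on with
    | empty => exact ⟨_, le_sup_right, le_rfl, by rw [od_sup, h1, map_zero]; rfl, by simp⟩
    | insert W T _ ih =>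
      obtain ⟨a, h3, h4, h5, h6⟩ := ih
      by_cases hW : W = G
      · refine ⟨a, h3, h4, h5, fun V hV hVG => ?_⟩
        rcases Finset.mem_insert.1 hV with rfl | hV
        exacts [absurd hW hVG, h6 V hV hVG]
      obtain ⟨g, h7, h8⟩ := Neg.exists_sep W.2 G.2 fun h => hW (Subtype.ext h)
      have h0 : g ≠ 0 := RZ.ne_zero_iff.1 (h7 ▸ one_ne_zero)
      have h9 : od W (pr k g) = 0 := by
        rw [← Int.cast_eq_zero (α := ℚ), ← tr_apply, tr_eq_zero_at, val_pr h0, h7]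
      have h10 : od G (pr k g) < 0 := by
        rw [← not_le, ← map_zero (od G), od_le_iff, val_pr h0, val_zero, not_le]
        exact h8
      have h11 : ∀ V : DV k F, 0 ≤ od V a := fun V => map_zero (od V) ▸ od_le_iff.2 (h3 V.1)
      refine ⟨a ⊓ (-pr k g ⊔ 0), le_inf h3 le_sup_right, inf_le_left.trans h4, ?_,
        fun V hV hVG => ?_⟩
      · rw [od_inf, od_sup, map_neg, map_zero, h5]
        omega
      · rw [od_inf, od_sup, map_neg, map_zero]
        have := h11 V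
        rcases Finset.mem_insert.1 hV with rfl | hV
        · rw [h9]
          omega
        · rw [h6 V hV hVG]
          omega
  obtain ⟨a, h3, h4, h5, h6⟩ := key h2.toFinset
  refine ⟨a, h3, h5, fun V hV hVG => ?_⟩
  by_cases h7 : tr (pr k f ⊔ 0) V = 0
  · have h8 := od_le_iff.2 (h4 V.1)
    have h9 := od_le_iff.2 (h3 V.1)
    rw [tr_apply, Int.cast_eq_zero] at h7
    rw [map_zero] at h9
    omega
  · exact h6 V (h2.mem_toFinset.2 ⟨hV, h7⟩) hVG

/-- a prime divisor of a `ℚ`-factorial model -/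
theorem QFac.exists_single (h : QFac H) (hH : IsMod H) {G : DV k F} (hG : Prm H G.1) :
    ∃ e ∈ CarQ H, 0 ≤ e ∧ e G = 1 ∧ ∀ V : DV k F, Prm H V.1 → V ≠ G → e V = 0 := by
  obtain ⟨a, h1, h2, h3⟩ := hH.exists_single G
  obtain ⟨e, h4, h5⟩ := h _ (tr_mem_BQ a)
  refine ⟨e, h4, carQ_le hH (zero_mem _) h4 fun V hV => ?_, ?_, fun V hV hVG => ?_⟩
  · rw [h5 V hV]
    exact tr_nonneg.2 h1 V
  · rw [h5 G hG, tr_apply, h2, Int.cast_one]
  · rw [h5 V hV, tr_apply, h3 V hV hVG, Int.cast_zero]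

/-- a small morphism onto a `ℚ`-factorial model is an isomorphism -/
theorem QFac.car (h : QFac H) (hH : H.Free) (hH' : IsMod H') (h1 : Car H' H)
    (hp : ∀ V, Prm H' V → Prm H V) : Car H H' := by
  obtain ⟨y, h2, h3⟩ := h _ (tr_mem_BQ H')
  have h4 := carQ_ext hH' (h1.carQ_le hH'.free h2) (car_self hH'.free).carQ
    fun V hV => h3 V (hp _ hV)
  exact car_of_carQ hH hH'.free (h4 ▸ h2)

end Crest.Agent.X262.Mod
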