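import Crest.Agent.X262.Mod79.Cell

/-!
# Row 262, SARK (helper79): Mori fibre spaces at the boundary (`FacetStmt`, `MissStmt`)
-/

set_option autoImplicit false
set_option linter.style.haveILetI false

open Filter
open scoped KaehlerDifferential

noncomputable section

namespace Crest.Agent.X262.Sark

open Crest.Agent.X277 Crest.Agent.X277.Lef Crest.Agent.X277.BD Crest.Agent.X277.Pst
open Crest.Agent.X277.BD.Br (On oP kP)
open Crest.Agent.X262.Mod

variable {K : Type} [Field K] [Algebra ℂ K] {n : ℕ} {b : Module.Basis (Fin n) K Ω[K⁄ℂ]}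

theorem big_of_car {A a : BD ℂ K} (h : Car A a) (hb : Big a) : Big A := by
  obtain ⟨c, -, h1⟩ := h
  have h2 := hb.add_eff h1.eff
  rw [add_sub_cancel] at h2
  rcases Nat.eq_zero_or_pos c with rfl | hc
  · obtain ⟨q, -, h3⟩ := h2 (-A)
    simpa using h2.add_eff h3
  · exact h2.of_nsmul hc

theorem car_natAbs {A a : BD ℂ K} {s : ℤ} (h : Car A (s • a)) : Car A (s.natAbs • a) := by
  rcases Int.natAbs_eq s with h1 | h1
  · rwa [h1, natCast_zsmul] at h
  · rw [h1, neg_smul, natCast_zsmul] at h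
    simpa using h.neg

theorem car_of_nsmul {A a : BD ℂ K} (hA : A.Free) (ha : a.Free) {m : ℕ} (hm : 0 < m)
    (h : Car A (m • a)) : Car A a := by
  obtain ⟨c, -, h2⟩ := h
  obtain ⟨m, rfl⟩ := Nat.exists_eq_succ_of_ne_zero hm.ne'
  refine car_of_free hA ha (n := c) ?_
  convert h2.add (ha.nsmul m) using 1
  rw [succ_nsmul]
  abel

/-- a terminal model of relative Picard number at most one with relatively big `-K` -/
theorem exists_mfs (Y : TM b) {A : BD ℂ K} (hA : A.Free) (hc : Car Y.H A) (hb : ¬ Big A)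
    (h1 : ∀ a a', Car Y.H a → Car Y.H a' → ∃ s t : ℤ, (s ≠ 0 ∨ t ≠ 0) ∧ Car A (s • a + t • a'))
    (h2 : ∃ (t : ℕ) (β : BD ℂ K), 0 < t ∧ Big β ∧ Car A (β + t • Y.κ)) :
    ∃ Z : MFS b, Z.toTM = Y ∧ Z.A = A := by
  obtain ⟨t, β, ht, h3, h4⟩ := h2
  have rho : ∀ a, Car Y.H a → ∃ m : ℕ, 0 < m ∧ ∃ c : ℤ, Car A (m • a - c • Y.κ) := by
    intro a ha
    obtain ⟨s, u, h5, h6⟩ := h1 a Y.κ ha Y.car
    rcases lt_trichotomy s 0 with hs | rfl | hs
    · refine ⟨s.natAbs, Int.natAbs_pos.2 hs.ne, u, ?_⟩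
      convert h6.neg using 1
      rw [← natCast_zsmul, Int.ofNat_natAbs_of_nonpos hs.le]
      module
    · have hu : 0 < u.natAbs := Int.natAbs_pos.2 (h5.resolve_left fun h => h rfl)
      rw [zero_smul, zero_add] at h6
      refine absurd (big_of_car ?_ (h3.nsmul hu)) hb
      convert (h4.nsmul u.natAbs).sub ((car_natAbs h6).nsmul t) using 1
      module
    · refine ⟨s.natAbs, Int.natAbs_pos.2 hs.ne', -u, ?_⟩
      convert h6 using 1
      rw [← natCast_zsmul, Int.natAbs_of_nonneg hs.le]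
      module
  refine ⟨⟨Y, A, hA, hc, hb, ?_, rho⟩, rfl, rfl⟩
  obtain ⟨m, hm, c, h5⟩ := rho Y.H (car_self Y.mod.free)
  rcases lt_or_ge c 0 with h6 | h6
  · obtain ⟨l, -, h7⟩ := h5
    obtain ⟨m, rfl⟩ := Nat.exists_eq_succ_of_ne_zero hm.ne'
    refine ⟨c.natAbs, l, Int.natAbs_pos.2 h6.ne, ?_⟩
    convert h7.add (Y.mod.free.nsmul m) using 1
    rw [← natCast_zsmul Y.κ, Int.ofNat_natAbs_of_nonpos h6.le, succ_nsmul]
    module
  · lift c to ℕ using h6
    refine absurd (big_of_car ?_ (((Y.mod.big.nsmul hm).nsmul ht).add_psef (h3.psef.nsmul c))) hb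
    convert (h5.nsmul t).add (h4.nsmul c) using 1
    module

theorem cross_zero {κ : Type} (β : (κ → ℤ) →+ ℤ) (z z' : κ → ℤ) :
    β (β z' • z - β z • z') = 0 := by
  rw [map_sub, map_zsmul, map_zsmul, smul_eq_mul, smul_eq_mul, mul_comm, sub_self]

/-- two forms and a vector -/
theorem exists_det {κ : Type} (α : Fin 2 → (κ → ℤ) →+ ℤ) {e : κ → ℤ} (he : ¬ ∀ j, α j e = 0) :
    ∃ β : (κ → ℤ) →+ ℤ, β e = 0 ∧ (∀ z, (∀ j, α j z = 0) → β z = 0) ∧ ∀ z, β z = 0 →
      ∃ m : ℕ, 0 < m ∧ ∃ u : ℤ, ∀ j, α j (m • z - u • e) = 0 := by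
  refine ⟨α 1 e • α 0 - α 0 e • α 1, by simp [mul_comm], fun z hz => by simp [hz], fun z hz => ?_⟩
  have h1 : α 1 e * α 0 z - α 0 e * α 1 z = 0 := by simpa using hz
  have h2 : 0 < α 0 e * α 0 e + α 1 e * α 1 e := by
    rw [Fin.forall_fin_two, not_and_or] at he
    rcases he with h | h
    · exact add_pos_of_pos_of_nonneg (mul_self_pos.2 h) (mul_self_nonneg _)
    · exact add_pos_of_nonneg_of_pos (mul_self_nonneg _) (mul_self_pos.2 h)
  refine ⟨_, Int.natAbs_pos.2 h2.ne', α 0 z * α 0 e + α 1 z * α 1 e, fun j => ?_⟩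
  rw [map_sub, map_nsmul, map_zsmul, nsmul_eq_mul, Int.natAbs_of_nonneg h2.le, smul_eq_mul]
  fin_cases j
  · change _ * α 0 z - _ * α 0 e = 0
    linear_combination α 1 e * h1
  · change _ * α 1 z - _ * α 1 e = 0
    linear_combination (-α 0 e) * h1

namespace Gm

variable {G : Gm b} {x y z w : G.κ → ℤ} {V E : RZ ℂ K}

/-- the cell of a big point above a point of codimension two has codimension at most one -/
theorem cd_one (hx : Rdg G.l G.S x) (hw : G.Ef w) (h : Face G.l x w) (hb : Big (G.D w)) :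
    Cd G.l w 1 := by
  obtain ⟨α, -, h2⟩ := hx.2.2.2
  have hx' : G.Ef x := ⟨hx.1, hx.2.1⟩
  have h3 : ¬ ∀ j, α j w = 0 := fun h3 => bdy_iff.1 hx.2.2.1 (hx'.big_iff.1
    (big_of_car (car_face hw hx' (h.symm_of fun i hi => h2 i hi w h3)) (hw.big_iff.2 hb)))
  obtain ⟨β, h4, -, h5⟩ := exists_det α h3
  refine ⟨fun _ => β, fun _ => h4, fun i hi z hz => ?_⟩
  obtain ⟨m, hm, u, h6⟩ := h5 z (hz 0)
  have h7 := h2 i (h.zero hi) _ h6
  rw [map_sub, map_nsmul, map_zsmul, hi, smul_zero, sub_zero, nsmul_eq_mul] at h7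
  exact (mul_eq_zero.1 h7).resolve_left (Int.natCast_pos.2 hm).ne'

namespace Cell

variable (C : G.Cell y)

theorem pi_self (hy : G.Ch y) : C.pi y = G.P y := C.face y hy.1 Face.rfl

theorem flat (hx : G.Ef x) (h : Face G.l x y) (hz : ∀ i, G.l i x = 0 → G.l i z = 0) :
    ∃ m : ℕ, (m • G.P x + C.pi z).Free ∧ m • G.P x + C.pi z ≤ m • G.c • G.D x + G.c • G.D z := by
  obtain ⟨m, h1, h2, -⟩ := (hx.ev_flat hz).exists
  have h3 := C.face _ h1 (h2.trans h)
  rw [map_add, map_nsmul, C.face x hx h] at h3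
  refine ⟨m, h3 ▸ h1.free, h3 ▸ h1.le.trans_eq ?_⟩
  rw [map_add, map_nsmul, smul_add, smul_comm]

/-- on the flat of a face the pull-back is Cartier on the model of the face -/
theorem car_flat (hx : G.Ef x) (h : Face G.l x y) (hz : ∀ i, G.l i x = 0 → G.l i z = 0) :
    Car (G.P x) (C.pi z) := by
  obtain ⟨m, h1, -⟩ := C.flat hx h hz
  obtain ⟨m', h2, -⟩ := C.flat hx h (z := -z) fun i hi => by rw [map_neg, hz i hi, neg_zero]
  exact car_of hx.free h1 (by rwa [map_neg, ← sub_eq_add_neg] at h2)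

theorem le_flat (hx : G.Ef x) (h : Face G.l x y) (hz : ∀ i, G.l i x = 0 → G.l i z = 0)
    (hV : G.Pr x V) : (C.pi z).val V ≤ (G.c • G.D z).val V := by
  obtain ⟨m, -, h1⟩ := C.flat hx h hz
  have h2 := h1 V
  rw [val_add, val_add, val_nsmul m, val_nsmul m, hV.2] at h2
  exact le_of_mul_le_mul_left h2 (pow_pos (val_pos _ _) m)

theorem eq_flat (hx : G.Ef x) (h : Face G.l x y) (hz : ∀ i, G.l i x = 0 → G.l i z = 0)
    (hV : G.Pr x V) : (C.pi z).val V = (G.c • G.D z).val V := by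
  refine (C.le_flat hx h hz hV).antisymm ?_
  have h1 := C.le_flat hx h (z := -z) (fun i hi => by rw [map_neg, hz i hi, neg_zero]) hV
  rwa [map_neg, map_neg, smul_neg, val_neg, val_neg, inv_le_inv₀ (val_pos _ _) (val_pos _ _)] at h1

/-- the pull-back of an exceptional prime is zero -/
theorem exc (hy : G.Ch y) (hE : ¬ Prm (G.P y) E) {f : K}
    (h : ∀ V, Prm (oP G.W) V → V ≠ E → (G.D z + pr ℂ f).val V = 1) :
    C.pi z + G.c • pr ℂ f = 0 :=
  haveI := G.essFT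
  ((C.car z).add ((car_pr f).nsmul _)).eq (hy.1.isMod hy.big) Car.zero fun U hU => by
    rw [val_add, C.eqOn z U hU, ← val_add, ← smul_add, val_nsmul,
      h U (hy.1.prm hy.big hU) (fun h => hE (h ▸ hU)), one_pow, val_zero]

/-- every Cartier divisor of the model is a pull-back -/
theorem surj (hy : G.Ch y) {a : BD ℂ K} (ha : Car (G.P y) a) :
    ∃ m : ℕ, 0 < m ∧ ∃ z f, m • a = C.pi z + G.c • pr ℂ f := by
  haveI := G.essFT
  obtain ⟨m, h1, z, f, h2⟩ := G.span a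
  refine ⟨G.c * m, mul_pos G.c_pos h1, z, f, (ha.nsmul _).eq (hy.1.isMod hy.big)
    ((C.car z).add ((car_pr f).nsmul _)) fun V hV => ?_⟩
  rw [val_add, C.eqOn z V hV, ← val_add, ← smul_add, mul_smul, val_nsmul, val_nsmul G.c,
    h2 V (hy.1.prm hy.big hV)]

/-- `-K` is big over the model of a face -/
theorem anti_big (hy : G.Ch y) (hx : G.Ef x) (h : Face G.l x y) :
    ∃ (t : ℕ) (β : BD ℂ K), 0 < t ∧ Big β ∧ Car (G.P x) (β + t • C.T.κ) := by
  haveI := G.essFT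
  obtain ⟨t, q, a, h1, h2, h3, -, h5⟩ := G.adj x hx.1
  have h6 : Nef a := nef_of_semiample h2 (by simpa using h5.add G.mod.free)
  have h6' : Big a := big_of_eff_sub G.mod.big h2 h5.eff
  have h7 : G.D (G.mK • x - t • G.kk) = G.mK • a - t • pr ℂ G.fk := by
    rw [map_sub, map_nsmul, map_nsmul, h3, G.D_kk]
    module
  have h8 : Nef (G.c • G.D (G.mK • x - t • G.kk)) := by
    rw [h7, sub_eq_add_neg, ← smul_neg]
    exact ((h6.nsmul _).add ((free_neg_pr _).nef.nsmul t)).nsmul _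
  have h9 := (C.car _).le_of_nef (hy.1.isMod hy.big) h8 (C.eqOn _).ge
  refine ⟨t, C.pi (G.mK • x - t • G.kk), h1, Big.mono ?_ h9, ?_⟩
  · rw [h7, sub_eq_add_neg, ← smul_neg]
    exact ((h6'.nsmul G.mK_pos).add_eff ((free_neg_pr _).nsmul t).eff).nsmul G.c_pos
  · convert ((car_self hx.free).nsmul G.mK).sub (((car_pr G.fk).nsmul G.c).nsmul t) using 1
    rw [map_sub, map_nsmul, map_nsmul, C.face x hx h, C.T_κ]
    module

theorem rank_one {A : BD ℂ K} (β : (G.κ → ℤ) →+ ℤ)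
    (h : ∀ z, β z = 0 → ∃ m : ℕ, 0 < m ∧ Car A (m • C.pi z)) (z z' : G.κ → ℤ) :
    ∃ s t : ℤ, (s ≠ 0 ∨ t ≠ 0) ∧ Car A (s • C.pi z + t • C.pi z') := by
  by_cases h0 : β z = 0
  · obtain ⟨m, h1, h2⟩ := h z h0
    exact ⟨m, 0, Or.inl (Int.natCast_pos.2 h1).ne', by simpa using h2⟩
  · obtain ⟨m, h1, h2⟩ := h (β z' • z - β z • z') (cross_zero β z z')
    refine ⟨m * β z', -(m * β z), Or.inr (neg_ne_zero.2 (mul_ne_zero
      (Int.natCast_pos.2 h1).ne' h0)), ?_⟩
    convert h2 using 1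
    rw [map_sub, map_zsmul, map_zsmul]
    module

theorem mfs (hy : G.Ch y) (hx : G.Ef x) (h : Face G.l x y) (hb : Bdy G.S x)
    (β : (G.κ → ℤ) →+ ℤ) (h1 : ∀ z, β z = 0 → ∃ m : ℕ, 0 < m ∧ Car (G.P x) (m • C.pi z)) :
    ∃ Y : MFS b, Y.toTM = C.T ∧ Y.A = G.P x := by
  refine exists_mfs C.T hx.free (C.T_H ▸ car_face hx hy.1 h)
    (fun h2 => bdy_iff.1 hb (hx.big_iff.1 h2)) (fun a a' ha ha' => ?_) (C.anti_big hy hx h)
  rw [C.T_H] at ha ha'
  obtain ⟨m, h2, z, f, h3⟩ := C.surj hy ha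
  obtain ⟨m', h4, z', f', h5⟩ := C.surj hy ha'
  obtain ⟨s, t, h6, h7⟩ := C.rank_one β h1 z z'
  refine ⟨s * m, t * m', h6.imp (mul_ne_zero · (Int.natCast_pos.2 h2).ne')
    (mul_ne_zero · (Int.natCast_pos.2 h4).ne'), ?_⟩
  convert h7.add ((((car_pr f).nsmul G.c).zsmul s).add (((car_pr f').nsmul G.c).zsmul t)) using 1
  rw [mul_smul, mul_smul, natCast_zsmul, natCast_zsmul, h3, h5]
  module

end Cell

end Gm

/-- the two sides of a cell of codimension one -/
theorem face_of_side {κ : Type} {N : ℕ} {l : Fin N → (κ → ℤ) →+ ℤ} {x y u : κ → ℤ}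
    {α : (κ → ℤ) →+ ℤ} (hα : ∀ i, l i x = 0 → ∀ z, α z = 0 → l i z = 0) (hy : Face l x y)
    (hc : Cham l y) (hu : Face l x u) (h : α u = 0 ∨ 0 < α u * α y) : Face l u y := by
  intro i
  rcases hy i with h1 | h1
  · rcases h with h | h
    · exact Or.inl (hα i h1 u h)
    by_cases h0 : l i = 0
    · simp [h0]
    have h2 := hα i h1 (α y • u - α u • y) (cross_zero α u y)
    rw [map_sub, map_zsmul, map_zsmul, smul_eq_mul, smul_eq_mul, sub_eq_zero] at h2
    have h3 := mul_pos h (mul_self_pos.2 (hc i h0))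
    have h4 : α u * α y * (l i y * l i y) = α y * α y * (l i u * l i y) := by
      linear_combination (-(α y * l i y)) * h2
    rw [h4] at h3
    exact Or.inr (pos_of_mul_pos_right h3 (mul_self_nonneg _))
  · rcases hu i with h2 | h2
    · simp [h2] at h1
    · refine Or.inr (not_le.1 fun h3 => ?_)
      nlinarith [mul_pos h1 h2, mul_nonneg (neg_nonneg.2 h3) (mul_self_nonneg (l i x))]

/-- **FACET** -/
theorem facetStmt : FacetStmt := by
  intro K _ _ n b G x y C hx hy h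
  obtain ⟨h1, h2, h3, α, -, h4⟩ := hx
  have h5 : ∀ i, G.l i x = 0 → ∀ z, α 0 z = 0 → G.l i z = 0 := fun i hi z hz =>
    h4 i hi z fun j => Subsingleton.elim 0 j ▸ hz
  refine ⟨fun y' hy' h' => ?_, C.mfs hy ⟨h1, h2⟩ h h3 (α 0) fun z hz =>
    ⟨1, one_pos, by simpa using C.car_flat ⟨h1, h2⟩ h fun i hi => h5 i hi z hz⟩⟩
  refine face_of_side h5 h' hy'.2 h ?_
  by_contra hc
  push Not at hc
  obtain ⟨z, hz⟩ := h3
  obtain ⟨m, h6, h7⟩ := ((h1.ev z).and (face_ev (l := G.l) x z)).exists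
  have h8 : ¬ (α 0 (m • x + z) = 0 ∨ 0 < α 0 (m • x + z) * α 0 y) := fun h8 =>
    hz m (hy.1.of_face h6 (face_of_side h5 h hy.2 h7 h8)).2
  have h9 : ¬ (α 0 (m • x + z) = 0 ∨ 0 < α 0 (m • x + z) * α 0 y') := fun h9 =>
    hz m (hy'.1.of_face h6 (face_of_side h5 h' hy'.2 h7 h9)).2
  push Not at h8 h9
  have h10 : α 0 y' ≠ 0 := fun h10 => by
    refine hz m (hy'.1.of_face h6 fun i => ?_).2
    rcases h' i with h11 | h11
    · exact Or.inl (hy'.flat _ i (h5 i h11 y' h10))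
    · rcases h7 i with h12 | h12
      · simp [h12] at h11
      · refine Or.inr (not_le.1 fun h3 => ?_)
        nlinarith [mul_pos h11 h12, mul_nonneg (neg_nonneg.2 h3) (mul_self_nonneg (G.l i x))]
  have h11 := lt_of_le_of_ne hc.2 (mul_ne_zero hc.1 h10)
  have h12 := lt_of_le_of_ne h8.2 (mul_ne_zero h8.1 hc.1)
  have h13 := lt_of_le_of_ne h9.2 (mul_ne_zero h9.1 h10)
  nlinarith [mul_pos_of_neg_of_neg h12 h13, mul_pos (neg_pos.2 h11) (mul_self_pos.2 h8.1)]

/-- **MISS** -/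
theorem missStmt : MissStmt := by
  intro K _ _ n b G x y C E hx hy h hE hE'
  obtain ⟨h1, h2, h3, α, -, h4⟩ := hx
  have hx : G.Ef x := ⟨h1, h2⟩
  have hnb : ¬ Big (G.P x) := fun h => Gm.bdy_iff.1 h3 (hx.big_iff.1 h)
  obtain ⟨e, f, h5, h6⟩ := G.prime E hE.1
  have h7 := C.exc hy hE' h6
  have h7' : C.pi e = -(G.c • pr ℂ f) := eq_neg_of_add_eq_zero_left h7
  have h8 : ¬ ∀ j, α j e = 0 := fun h8 => by
    have h9 : (C.pi e + G.c • pr ℂ f).val E = (0 : BD ℂ K).val E := by rw [h7]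
    rw [val_add, C.eq_flat hx h (fun i hi => h4 i hi e h8) hE, ← val_add, ← smul_add, val_nsmul,
      val_zero] at h9
    exact (one_lt_pow₀ h5 G.c_pos.ne').ne' h9
  obtain ⟨β, -, -, h9⟩ := exists_det α h8
  have h10 : ∀ z, β z = 0 → ∃ m : ℕ, 0 < m ∧ Car (G.P x) (m • C.pi z) := fun z hz => by
    obtain ⟨m, hm, u, h10⟩ := h9 z hz
    refine ⟨m, hm, ?_⟩
    convert (C.car_flat hx h fun i hi => h4 i hi _ h10).sub (((car_pr f).nsmul G.c).zsmul u) using 1
    rw [map_sub, map_nsmul, map_zsmul, h7']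
    module
  refine ⟨fun V hV hVE => ?_, C.mfs hy hx h h3 β h10, fun w hw h11 h12 h13 => ?_⟩
  · by_contra hc
    obtain ⟨v, g, h11, h12⟩ := G.prime V hV.1
    have h13 : C.pi v = -(G.c • pr ℂ g) := eq_neg_of_add_eq_zero_left (C.exc hy hc h12)
    by_cases h14 : β v = 0
    · obtain ⟨m, hm, u, h15⟩ := h9 v h14
      have h16 := C.eq_flat hx h (fun i hi => h4 i hi _ h15) hV
      have h17 : G.c • G.D (m • v - u • e) - C.pi (m • v - u • e) =
          G.c • (m • (G.D v + pr ℂ g) - u • (G.D e + pr ℂ f)) := by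
        rw [map_sub, map_sub, map_nsmul, map_nsmul, map_zsmul, map_zsmul, h7', h13]
        module
      have h18 : (G.c • (m • (G.D v + pr ℂ g) - u • (G.D e + pr ℂ f))).val V = 1 := by
        rw [← h17, val_sub, h16, div_self (val_ne _ _)]
      rw [val_nsmul, val_sub, val_zsmul, h6 V hV.1 hVE, one_zpow, div_one, val_nsmul] at h18
      exact (one_lt_pow₀ (one_lt_pow₀ h11 hm.ne') G.c_pos.ne').ne' h18
    · obtain ⟨m, hm, h15⟩ := h10 (β v • y - β y • v) (cross_zero β y v)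
      have h16 : Car (G.P x) ((m * β v) • G.P y) := by
        convert h15.sub ((((car_pr g).nsmul G.c).zsmul (β y)).nsmul m) using 1
        rw [map_sub, map_zsmul, map_zsmul, h13, C.pi_self hy]
        module
      exact hnb (big_of_car (car_natAbs h16) ((hy.1.big_iff.2 hy.big).nsmul
        (Int.natAbs_pos.2 (mul_ne_zero (Int.natCast_pos.2 hm).ne' h14))))
  · obtain ⟨s, t, h14, h15⟩ := C.rank_one β h10 y w
    rw [C.pi_self hy, C.face w hw h12] at h15
    have h16 : s ≠ 0 := by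
      rintro rfl
      rw [zero_smul, zero_add] at h15
      exact hnb (big_of_car (car_natAbs h15) ((hw.big_iff.2 h13).nsmul
        (Int.natAbs_pos.2 (h14.resolve_left fun h => h rfl))))
    have h17 := ((Gm.car_face hx hw h11).trans hw.free h15).sub ((car_self hw.free).zsmul t)
    rw [add_sub_cancel_right] at h17
    exact car_of_nsmul hw.free hy.1.free (Int.natAbs_pos.2 h16) (car_natAbs h17)

end Crest.Agent.X262.Sark
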