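import Crest.Agent.X262.Mod79.Bp

/-!
# Row 262, MOD (helper79): `ℚ`-b-divisors as functions on divisorial valuations

* `DV k F`, `od V`, `QD k F = DV k F → ℚ`, `tr : BD k F →+ QD k F` (an order embedding);
* `Lf p x` : the sufficiently divisible multiples of `x` are b-divisors with the property `p`;
* `BQ`, `CarQ H`, `PrQ` (submodules), `SaQ`, `NefQ`, `BigQ`, `PsefQ`, `RNefQ H`, `PosQ`;
* `LeQ H`, `EqQ H` : comparison at the primes of a model; `carQ_ge` : negativity;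
* `md p` : the model of a semiample class; `AmpQ H`; `Same H H'` : the same model.
-/

set_option autoImplicit false
set_option linter.unusedSectionVars false

noncomputable section

namespace Crest.Agent.X262.Mod

open Crest.Agent.X277 Crest.Agent.X277.BD Crest.Agent.X277.Pst Filter

universe u

/-- sufficiently divisible positive integers -/
def dvT : Filter ℕ where
  sets := {S | ∃ m, 0 < m ∧ ∀ l, 0 < l → l * m ∈ S}
  univ_sets := ⟨1, one_pos, fun _ _ => trivial⟩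
  sets_of_superset := fun ⟨m, h1, h2⟩ h => ⟨m, h1, fun l hl => h (h2 l hl)⟩
  inter_sets := fun ⟨m, h1, h2⟩ ⟨n, h3, h4⟩ => ⟨m * n, mul_pos h1 h3, fun l hl =>
    ⟨by simpa only [mul_assoc, mul_comm n m] using h2 (l * n) (mul_pos hl h3),
      by simpa only [mul_assoc] using h4 (l * m) (mul_pos hl h1)⟩⟩

theorem ev_dvT {p : ℕ → Prop} : (∀ᶠ n in dvT, p n) ↔ ∃ m, 0 < m ∧ ∀ l, 0 < l → p (l * m) :=
  Iff.rfl

theorem ev_pos : ∀ᶠ n in dvT, 0 < n := ⟨1, one_pos, fun l hl => by simpa using hl⟩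

theorem ev_exists {p : ℕ → Prop} (h : ∀ᶠ n in dvT, p n) : ∃ n, 0 < n ∧ p n := by
  obtain ⟨m, h1, h2⟩ := h
  exact ⟨m, h1, by simpa using h2 1 one_pos⟩

variable (k F : Type u) [Field k] [Field F] [Algebra k F]

/-- divisorial valuations -/
abbrev DV : Type u := {V : RZ k F // Dvs V}

/-- `ℚ`-valued functions on divisorial valuations -/
abbrev QD : Type u := DV k F → ℚ

variable {k F}

/-- the coefficient along a divisorial valuation -/
def od (V : DV k F) : BD k F →+ ℤ := ord (Neg.nv V.1) (Neg.nv_triv V.1)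

/-- the coefficients of a b-divisor -/
def tr : BD k F →+ QD k F where
  toFun a V := od V a
  map_zero' := funext fun V => by simp
  map_add' a b := funext fun V => by simp

theorem tr_apply (a : BD k F) (V : DV k F) : tr a V = od V a := rfl

theorem tr_nsmul (m : ℕ) (a : BD k F) : tr (m • a) = (m : ℚ) • tr a := by
  rw [map_nsmul, Nat.cast_smul_eq_nsmul]

theorem tr_zsmul (m : ℤ) (a : BD k F) : tr (m • a) = (m : ℚ) • tr a := by
  rw [map_zsmul, Int.cast_smul_eq_zsmul]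

variable [CharZero k] [Algebra.EssFiniteType k F]
variable {H H' H'' a b c : BD k F} {x y z p q : QD k F} {V : DV k F} {t : ℚ}

theorem od_le_iff : od V a ≤ od V b ↔ a.val V.1 ≤ b.val V.1 := by
  rw [od, ord_le_iff, (Neg.isNv_nv V.2).rz_eq]

theorem tr_le_at : tr a V ≤ tr b V ↔ a.val V.1 ≤ b.val V.1 := by
  rw [tr_apply, tr_apply, Int.cast_le, od_le_iff]

theorem tr_eq_at : tr a V = tr b V ↔ a.val V.1 = b.val V.1 := by
  rw [le_antisymm_iff, le_antisymm_iff, tr_le_at, tr_le_at]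

theorem tr_lt_at : tr a V < tr b V ↔ a.val V.1 < b.val V.1 := by
  rw [← not_le, ← not_le, tr_le_at]

theorem tr_eq_zero_at : tr a V = 0 ↔ a.val V.1 = 1 := by
  rw [← val_zero V.1, ← tr_eq_at, map_zero, Pi.zero_apply]

theorem tr_pos_at : 0 < tr a V ↔ 1 < a.val V.1 := by
  rw [← val_zero V.1, ← tr_lt_at, map_zero, Pi.zero_apply]

theorem tr_le_iff : tr a ≤ tr b ↔ a ≤ b :=
  ⟨fun h => le_of_dvs fun V hV => tr_le_at.1 (h ⟨V, hV⟩), fun h V => tr_le_at.2 (h V.1)⟩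

theorem tr_injective : Function.Injective (tr : BD k F → QD k F) := fun _ _ h =>
  le_antisymm (tr_le_iff.1 h.le) (tr_le_iff.1 h.ge)

theorem tr_nonneg : 0 ≤ tr a ↔ 0 ≤ a := by rw [← tr_le_iff, map_zero]

/-- a uniformiser gives a principal divisor with coefficient one -/
theorem exists_od_pr (V : DV k F) : ∃ f : F, f ≠ 0 ∧ od V (pr k f) = 1 := by
  obtain ⟨f, hf⟩ := (Neg.isNv_nv V.2).unif
  have h0 : f ≠ 0 := by
    rintro rfl
    rw [map_zero] at hf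
    exact WithZero.exp_ne_zero hf.symm
  refine ⟨f⁻¹, inv_ne_zero h0, ?_⟩
  rw [pr_inv, map_neg, od, ord_pr h0, hf, WithZero.log_exp, neg_neg]

/-! ### lifting of properties -/

/-- the divisible multiples of `x` are b-divisors with the property `P` -/
def Lf (P : BD k F → Prop) (x : QD k F) : Prop :=
  ∀ᶠ m : ℕ in dvT, ∃ a, tr a = (m : ℚ) • x ∧ P a

section Lf

variable {P Q R : BD k F → Prop}

theorem lf_of (hP : ∀ a (m : ℕ), 0 < m → P a → P (m • a)) {m : ℕ} (hm : 0 < m)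
    (h : tr a = (m : ℚ) • x) (ha : P a) : Lf P x :=
  ⟨m, hm, fun l hl => ⟨l • a, by rw [tr_nsmul, h, smul_smul, Nat.cast_mul], hP a l hl ha⟩⟩

theorem lf_tr (hP : ∀ a (m : ℕ), 0 < m → P a → P (m • a)) (ha : P a) : Lf P (tr a) :=
  lf_of hP one_pos (by simp) ha

theorem Lf.exists (h : Lf P x) : ∃ (m : ℕ) (a : BD k F), 0 < m ∧ tr a = (m : ℚ) • x ∧ P a := by
  obtain ⟨m, h1, a, h2⟩ := ev_exists h
  exact ⟨m, a, h1, h2⟩

theorem Lf.exists_tr (h : Lf P (tr a)) : ∃ m : ℕ, 0 < m ∧ P (m • a) := by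
  obtain ⟨m, b, h1, h2, h3⟩ := h.exists
  exact ⟨m, h1, tr_injective (h2.trans (tr_nsmul m a).symm) ▸ h3⟩

theorem Lf.mono (h : Lf P x) (hPQ : ∀ a, P a → Q a) : Lf Q x :=
  Eventually.mono h fun _ ⟨a, h1, h2⟩ => ⟨a, h1, hPQ a h2⟩

theorem Lf.and (h : Lf P x) (h' : Lf Q x) : Lf (fun a => P a ∧ Q a) x := by
  filter_upwards [h, h'] with m ⟨a, h1, h2⟩ ⟨b, h3, h4⟩
  exact ⟨a, h1, h2, tr_injective (h3.trans h1.symm) ▸ h4⟩

theorem Lf.add (hR : ∀ a b, P a → Q b → R (a + b)) (h : Lf P x) (h' : Lf Q y) : Lf R (x + y) := by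
  filter_upwards [h, h'] with m ⟨a, h1, h2⟩ ⟨b, h3, h4⟩
  exact ⟨a + b, by rw [map_add, h1, h3, smul_add], hR a b h2 h4⟩

theorem Lf.neg (hR : ∀ a, P a → R (-a)) (h : Lf P x) : Lf R (-x) :=
  Eventually.mono h fun _ ⟨a, h1, h2⟩ => ⟨-a, by rw [map_neg, h1, smul_neg], hR a h2⟩

theorem Lf.smul (hP : ∀ a (m : ℕ), 0 < m → P a → P (m • a)) (h : Lf P x) (ht : 0 < t) :
    Lf P (t • x) := by
  obtain ⟨m, a, h1, h2, h3⟩ := h.exists
  have h4 : 0 < t.num.natAbs := Int.natAbs_pos.2 (Rat.num_pos.2 ht).ne'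
  refine lf_of hP (mul_pos h1 t.den_pos) ?_ (hP a _ h4 h3)
  rw [tr_nsmul, h2, smul_smul, smul_smul, Nat.cast_mul, mul_assoc, Rat.den_mul_eq_num, mul_comm,
    Nat.cast_natAbs, abs_of_pos (Rat.num_pos.2 ht)]

theorem Lf.exists₂ (h : Lf P x) (h' : Lf Q y) : ∃ (m : ℕ) (a b : BD k F), 0 < m ∧
    tr a = (m : ℚ) • x ∧ tr b = (m : ℚ) • y ∧ P a ∧ Q b := by
  obtain ⟨m, h1, ⟨a, h2, h3⟩, b, h4, h5⟩ := ev_exists (Eventually.and h h')
  exact ⟨m, a, b, h1, h2, h4, h3, h5⟩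

end Lf

/-- the `ℚ`-span of a group of b-divisors -/
def lfG (G : AddSubgroup (BD k F)) : Submodule ℚ (QD k F) where
  carrier := {x | Lf (· ∈ G) x}
  zero_mem' := map_zero (tr (k := k) (F := F)) ▸ lf_tr (fun _ m _ h => G.nsmul_mem h m) G.zero_mem
  add_mem' := Lf.add fun _ _ => G.add_mem
  smul_mem' t x hx := by
    rcases lt_trichotomy t 0 with ht | rfl | ht
    · have h := (Lf.smul (fun _ m _ h => G.nsmul_mem h m) hx (neg_pos.2 ht)).neg
        (R := (· ∈ G)) fun _ => G.neg_mem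
      rwa [neg_smul, neg_neg] at h
    · rw [zero_smul, ← map_zero (tr (k := k) (F := F))]
      exact lf_tr (fun _ m _ h => G.nsmul_mem h m) G.zero_mem
    · exact Lf.smul (fun _ m _ h => G.nsmul_mem h m) hx ht

theorem mem_lfG {G : AddSubgroup (BD k F)} : x ∈ lfG G ↔ Lf (· ∈ G) x := Iff.rfl

theorem tr_mem_lfG {G : AddSubgroup (BD k F)} (h : a ∈ G) : tr a ∈ lfG G :=
  lf_tr (fun _ m _ h => G.nsmul_mem h m) h

theorem lfG_mono {G G' : AddSubgroup (BD k F)} (h : G ≤ G') : lfG G ≤ lfG G' :=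
  fun _ hx => Lf.mono hx fun _ ha => h ha

variable (k F) in
/-- principal b-divisors -/
def prG : AddSubgroup (BD k F) where
  carrier := {a | ∃ f : F, f ≠ 0 ∧ a = pr k f}
  zero_mem' := ⟨1, one_ne_zero, pr_one.symm⟩
  add_mem' := by
    rintro _ _ ⟨f, hf, rfl⟩ ⟨g, hg, rfl⟩
    exact ⟨f * g, mul_ne_zero hf hg, (pr_mul hf hg).symm⟩
  neg_mem' := by
    rintro _ ⟨f, hf, rfl⟩
    exact ⟨f⁻¹, inv_ne_zero hf, (pr_inv f).symm⟩

theorem pr_mem_prG (f : F) : pr k f ∈ prG k F := by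
  by_cases hf : f = 0
  · rw [hf, pr_zero]
    exact zero_mem _
  · exact ⟨f, hf, rfl⟩

theorem lin_iff : Lin a b ↔ a - b ∈ prG k F :=
  exists_congr fun _ => and_congr_right fun _ => sub_eq_iff_eq_add'.symm

variable (k F) in
/-- `ℚ`-Cartier b-divisors -/
def BQ : Submodule ℚ (QD k F) := lfG ⊤

variable (k F) in
/-- `ℚ`-principal b-divisors -/
def PrQ : Submodule ℚ (QD k F) := lfG (prG k F)

/-- `ℚ`-Cartier divisors of the `H`-model -/
def CarQ (H : BD k F) : Submodule ℚ (QD k F) := lfG (carG H)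

/-- semiample -/
def SaQ (x : QD k F) : Prop := Lf Free x

/-- nef -/
def NefQ (x : QD k F) : Prop := Lf Nef x

/-- big -/
def BigQ (x : QD k F) : Prop := Lf Big x

/-- pseudo-effective -/
def PsefQ (x : QD k F) : Prop := Lf Psef x

/-- nef over the `H`-model -/
def RNefQ (H : BD k F) (x : QD k F) : Prop := Lf (RNef H) x

theorem tr_mem_BQ (a : BD k F) : tr a ∈ BQ k F := tr_mem_lfG trivial

theorem Lf.mem_BQ {P : BD k F → Prop} (h : Lf P x) : x ∈ BQ k F := h.mono fun _ _ => trivial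

theorem carQ_le_BQ : CarQ H ≤ BQ k F := lfG_mono le_top

theorem prQ_le_carQ : PrQ k F ≤ CarQ H := lfG_mono (by rintro _ ⟨f, -, rfl⟩; exact car_pr f)

theorem Car.carQ (h : Car H a) : tr a ∈ CarQ H := tr_mem_lfG h

theorem tr_pr_mem (f : F) : tr (pr k f) ∈ PrQ k F := tr_mem_lfG (pr_mem_prG f)

theorem Car.carQ_le (hH : H'.Free) (h : Car H' H) : CarQ H ≤ CarQ H' :=
  lfG_mono fun _ ha => h.trans hH ha

/-- for a free class, `ℚ`-Cartier is the same as Cartier -/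
theorem car_of_carQ (hH : H.Free) (ha : a.Free) (h : tr a ∈ CarQ H) : Car H a := by
  obtain ⟨m, h1, c, -, h2⟩ := Lf.exists_tr h
  obtain ⟨m, rfl⟩ := Nat.exists_eq_succ_of_ne_zero h1.ne'
  refine car_of_free hH ha (n := c) ?_
  convert h2.add (ha.nsmul m) using 1
  rw [succ_nsmul]
  abel

theorem saQ_of {m : ℕ} (hm : 0 < m) (h : tr a = (m : ℚ) • x) (ha : a.Free) : SaQ x :=
  lf_of (fun _ m _ h => h.nsmul m) hm h ha

theorem saQ_tr (h : a.Free) : SaQ (tr a) := lf_tr (fun _ m _ h => h.nsmul m) h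

theorem SaQ.zero : SaQ (0 : QD k F) := map_zero (tr (k := k) (F := F)) ▸ saQ_tr Free.zero

theorem SaQ.add (hx : SaQ x) (hy : SaQ y) : SaQ (x + y) := Lf.add (fun _ _ => Free.add) hx hy

theorem SaQ.smul (hx : SaQ x) (ht : 0 ≤ t) : SaQ (t • x) := by
  rcases ht.eq_or_lt with rfl | ht
  · simpa using SaQ.zero
  · exact Lf.smul (fun _ m _ h => h.nsmul m) hx ht

theorem SaQ.of_smul (ht : 0 < t) (hx : SaQ (t • x)) : SaQ x := by
  simpa [smul_smul, ht.ne'] using hx.smul (inv_pos.2 ht).le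

theorem saQ_of_prQ (h : x ∈ PrQ k F) : SaQ x :=
  Lf.mono h (by rintro _ ⟨f, -, rfl⟩; exact free_pr f)

theorem SaQ.nef (h : SaQ x) : NefQ x := Lf.mono h fun _ => Free.nef

theorem nefQ_tr : NefQ (tr a) ↔ Nef a :=
  ⟨fun h => (Lf.exists_tr h).elim fun _ h => h.2.of_nsmul h.1, lf_tr fun _ m _ h => h.nsmul m⟩

theorem NefQ.add (hx : NefQ x) (hy : NefQ y) : NefQ (x + y) := Lf.add (fun _ _ => Nef.add) hx hy

theorem NefQ.smul (hx : NefQ x) (ht : 0 ≤ t) : NefQ (t • x) := by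
  rcases ht.eq_or_lt with rfl | ht
  · simpa using SaQ.zero.nef
  · exact Lf.smul (fun _ m _ h => h.nsmul m) hx ht

theorem NefQ.psef (h : NefQ x) : PsefQ x := Lf.mono h fun _ => Nef.psef

theorem bigQ_tr : BigQ (tr a) ↔ Big a :=
  ⟨fun h => (Lf.exists_tr h).elim fun _ h => h.2.of_nsmul h.1, lf_tr fun _ _ hm h => h.nsmul hm⟩

theorem BigQ.smul (hx : BigQ x) (ht : 0 < t) : BigQ (t • x) :=
  Lf.smul (fun _ _ hm h => h.nsmul hm) hx ht

theorem bigQ_smul (ht : 0 < t) : BigQ (t • x) ↔ BigQ x :=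
  ⟨fun h => by simpa [smul_smul, ht.ne'] using h.smul (inv_pos.2 ht), fun h => h.smul ht⟩

theorem bigQ_iff {m : ℕ} (hm : 0 < m) (h : tr a = (m : ℚ) • x) : BigQ x ↔ Big a := by
  rw [← bigQ_tr, h, bigQ_smul (Nat.cast_pos.2 hm)]

theorem BigQ.add_psef (hx : BigQ x) (hy : PsefQ y) : BigQ (x + y) :=
  Lf.add (fun _ _ => Big.add_psef) hx hy

theorem BigQ.psef (h : BigQ x) : PsefQ x := Lf.mono h fun _ => Big.psef

theorem BigQ.add_sa (hx : BigQ x) (hy : SaQ y) : BigQ (x + y) := hx.add_psef hy.nef.psef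

theorem psefQ_tr : PsefQ (tr a) ↔ Psef a :=
  ⟨fun h => (Lf.exists_tr h).elim fun _ h => h.2.of_nsmul h.1, lf_tr fun _ m _ h => h.nsmul m⟩

theorem PsefQ.add (hx : PsefQ x) (hy : PsefQ y) : PsefQ (x + y) :=
  Lf.add (fun _ _ => Psef.add) hx hy

theorem PsefQ.smul (hx : PsefQ x) (ht : 0 ≤ t) : PsefQ (t • x) := by
  rcases ht.eq_or_lt with rfl | ht
  · simpa using SaQ.zero.nef.psef
  · exact Lf.smul (fun _ m _ h => h.nsmul m) hx ht

theorem le_of_tr {m : ℕ} (h1 : tr a = (m : ℚ) • x) (h2 : tr b = (m : ℚ) • y) (h : x ≤ y) :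
    a ≤ b := by
  rw [← tr_le_iff, h1, h2]
  exact smul_le_smul_of_nonneg_left h (Nat.cast_nonneg m)

theorem le_of_le_tr {m : ℕ} (hm : 0 < m) (h1 : tr a = (m : ℚ) • x) (h2 : tr b = (m : ℚ) • y)
    (h : a ≤ b) : x ≤ y := by
  rw [← tr_le_iff, h1, h2] at h
  exact le_of_smul_le_smul_of_pos_left h (Nat.cast_pos.2 hm)

theorem psefQ_of_nonneg (hx : x ∈ BQ k F) (h : 0 ≤ x) : PsefQ x := by
  filter_upwards [hx] with m ⟨a, h1, _⟩
  exact ⟨a, h1, psef_of_nonneg (le_of_tr (x := 0) (by simp) h1 h)⟩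

theorem BigQ.mono (hx : BigQ x) (hy : y ∈ BQ k F) (h : x ≤ y) : BigQ y := by
  simpa using hx.add_psef (psefQ_of_nonneg (sub_mem hy hx.mem_BQ) (sub_nonneg.2 h))

/-- bigness is an open condition -/
theorem BigQ.exists_sub (hx : BigQ x) (hy : y ∈ BQ k F) : ∃ t : ℚ, 0 < t ∧ BigQ (x - t • y) := by
  obtain ⟨m, a, b, h1, h2, h3, h4, -⟩ := Lf.exists₂ hx hy
  obtain ⟨r, hr⟩ := h4.exists_sub b
  refine ⟨((r + 1 : ℕ) : ℚ)⁻¹, by positivity, (bigQ_iff (m := (r + 1) * m) (by positivity) ?_).2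
    (hr (r + 1) r.le_succ)⟩
  rw [map_sub, tr_nsmul, h2, h3, smul_sub, smul_smul, smul_smul, Nat.cast_mul]
  congr 2
  field_simp

theorem RNefQ.add (hx : RNefQ H x) (hy : RNefQ H y) : RNefQ H (x + y) :=
  Lf.add (fun _ _ => RNef.add) hx hy

theorem NefQ.rnef (h : NefQ x) : RNefQ H x := Lf.mono h fun _ => rnef_of_nef

theorem rnefQ_of_car (h : x ∈ CarQ H) : RNefQ H x := Lf.mono h fun _ => Car.rnef

theorem rnefQ_of_add (hx : NefQ (x + y)) (hy : y ∈ CarQ H) : RNefQ H x := by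
  simpa using hx.rnef.add (rnefQ_of_car (neg_mem hy))

/-! ### comparison at the primes of a model -/

/-- `x ≤ y` at the primes of the `H`-model -/
def LeQ (H : BD k F) (x y : QD k F) : Prop := ∀ V : DV k F, Prm H V.1 → x V ≤ y V

/-- `x = y` at the primes of the `H`-model -/
def EqQ (H : BD k F) (x y : QD k F) : Prop := ∀ V : DV k F, Prm H V.1 → x V = y V

theorem EqQ.le (h : EqQ H x y) : LeQ H x y := fun V hV => (h V hV).le

theorem EqQ.ge (h : EqQ H x y) : LeQ H y x := fun V hV => (h V hV).ge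

theorem EqQ.symm (h : EqQ H x y) : EqQ H y x := fun V hV => (h V hV).symm

theorem EqQ.trans (h : EqQ H x y) (h' : EqQ H y z) : EqQ H x z :=
  fun V hV => (h V hV).trans (h' V hV)

theorem EqQ.add {x' y' : QD k F} (h : EqQ H x y) (h' : EqQ H x' y') : EqQ H (x + x') (y + y') :=
  fun V hV => by rw [Pi.add_apply, Pi.add_apply, h V hV, h' V hV]

theorem EqQ.smul (h : EqQ H x y) (t : ℚ) : EqQ H (t • x) (t • y) :=
  fun V hV => by rw [Pi.smul_apply, Pi.smul_apply, h V hV]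

theorem leQ_tr : LeQ H (tr a) (tr b) ↔ LeOn H a b :=
  ⟨fun h V hV => tr_le_at.1 (h ⟨V, hV.dvs⟩ hV), fun h V hV => tr_le_at.2 (h V.1 hV)⟩

theorem eqQ_tr : EqQ H (tr a) (tr b) ↔ EqOn H a b :=
  ⟨fun h V hV => tr_eq_at.1 (h ⟨V, hV.dvs⟩ hV), fun h V hV => tr_eq_at.2 (h V.1 hV)⟩

theorem leOn_of_tr {m : ℕ} (h1 : tr a = (m : ℚ) • x) (h2 : tr b = (m : ℚ) • y) (h : LeQ H x y) :
    LeOn H a b := by
  rw [← leQ_tr, h1, h2]
  exact fun V hV => mul_le_mul_of_nonneg_left (h V hV) (Nat.cast_nonneg m)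

theorem eqOn_of_tr {m : ℕ} (h1 : tr a = (m : ℚ) • x) (h2 : tr b = (m : ℚ) • y) (h : EqQ H x y) :
    EqOn H a b := (leOn_of_tr h1 h2 h.le).antisymm (leOn_of_tr h2 h1 h.ge)

theorem eqQ_of_tr {m : ℕ} (hm : 0 < m) (h1 : tr a = (m : ℚ) • x) (h2 : tr b = (m : ℚ) • y)
    (h : EqOn H a b) : EqQ H x y := fun V hV => by
  have h3 := eqQ_tr.2 h V hV
  rw [h1, h2] at h3
  exact mul_left_cancel₀ (Nat.cast_pos.2 hm).ne' h3

/-- **negativity** -/
theorem carQ_ge (hH : IsMod H) (hx : x ∈ CarQ H) (hy : RNefQ H y) (h : LeQ H y x) : y ≤ x := by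
  obtain ⟨m, a, b, h1, h2, h3, h4, h5⟩ := Lf.exists₂ hx hy
  exact le_of_le_tr h1 h3 h2 (Car.le_of_rnef hH h4 h5 (leOn_of_tr h3 h2 h))

theorem carQ_le (hH : IsMod H) (hx : x ∈ CarQ H) (hy : y ∈ CarQ H) (h : LeQ H x y) : x ≤ y :=
  carQ_ge hH hy (rnefQ_of_car hx) h

theorem carQ_ext (hH : IsMod H) (hx : x ∈ CarQ H) (hy : y ∈ CarQ H) (h : EqQ H x y) : x = y :=
  le_antisymm (carQ_le hH hx hy h.le) (carQ_le hH hy hx h.ge)

theorem IsMod.fin_supp (hH : IsMod H) (hx : x ∈ BQ k F) :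
    {V : DV k F | Prm H V.1 ∧ x V ≠ 0}.Finite := by
  obtain ⟨m, a, h1, h2, -⟩ := Lf.exists hx
  refine ((hH.fin_val a).preimage Subtype.val_injective.injOn).subset fun V hV => ⟨hV.1, ?_⟩
  rw [Ne, ← tr_eq_zero_at, h2]
  exact mul_ne_zero (Nat.cast_pos.2 h1).ne' hV.2

theorem IsMod.fin_excQ (hH : IsMod H) (hH' : IsMod H') :
    {V : DV k F | Prm H' V.1 ∧ ¬ Prm H V.1}.Finite :=
  (hH.fin_exc hH').preimage Subtype.val_injective.injOn

end Crest.Agent.X262.Mod
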